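import Vale.Agent.P167.H825.Reg.Fin

/-!
# P167, general `q`: S_REG for the translates of the enlargements

All translates (also the odd ones); free and wired boundary conditions with an arbitrary base site.
-/

namespace Vale.Agent.P167.H825.Reg

open Finset Filter Topology
open Vale.Agent.P167.FK
open Vale.Agent.P167.BR (sites mem_sites)
open Vale.Agent.P167.E6 (IsPolygon Encloses dir face)
open Vale.Agent.P167.H167.Q (hpl hcl lsd FlR Bd3 Reg S_REG BcIn)
open Vale.Agent.P167.H166 (bxx mem_bxx)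
open Vale.Agent.P167.H562.QM (OneP OneC QC mem_image_sh)
open Vale.Agent.P167.Enl
open Vale.Agent.P167.H506.Q (mem_bq)
open Vale.Agent.P167.H718 (Dob dob_of exists_bd)
open Vale.Agent.P167.H825 (enl pdir)
open Vale.Agent.P167.H825.Q (Bc)

variable {l : ℕ} {p : ZMod l → ℤ × ℤ} {S₀ : Finset (ℤ × ℤ)} {n t : ℕ} {D : Finset (ℤ × ℤ)}
  {P : ℕ → ℤ × ℤ} {N k : ℕ} {rA rB : Fin 4} {L : ℤ}

theorem mem_tr {a v : ℤ × ℤ} : v ∈ D.image (· + a) ↔ v - a ∈ D := by
  rw [mem_image]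
  constructor
  · rintro ⟨w, hw, rfl⟩
    simpa using hw
  · intro h
    exact ⟨_, h, by simp⟩

theorem poly_tr {q : ZMod N → ℤ × ℤ} (hq : IsPolygon q) (a : ℤ × ℤ) :
    IsPolygon (fun i => q i + a) := by
  refine ⟨hq.1, fun i j h => hq.2.1 (add_right_cancel h), fun i => ?_⟩
  obtain ⟨r, hr⟩ := hq.2.2 i
  refine ⟨r, ?_⟩
  show q (i + 1) + a = q i + a + dir r
  rw [hr]; ring

theorem encl_tr {q : ZMod N → ℤ × ℤ} (hD : Encloses q D) (a : ℤ × ℤ) :
    Encloses (fun i => q i + a) (D.image (· + a)) := by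
  intro v r
  have e : ∀ r : Fin 4, face v r ∈ D.image (· + a) ↔ face (v - a) r ∈ D := by
    intro r
    rw [mem_tr]
    have : face v r - a = face (v - a) r := by unfold face; ring
    rw [this]
  rw [e, e, ← hD (v - a) r]
  constructor
  · rintro ⟨i, h1, h2⟩
    exact ⟨i, eq_sub_of_add_eq h1, by rw [← sub_eq_iff_eq_add.2 h2.symm]; ring⟩
  · rintro ⟨i, h1, h2⟩
    refine ⟨i, ?_, ?_⟩
    · show q i + a = v
      rw [h1]; ring
    · show q (i + 1) + a = v + dir r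
      rw [h2]; ring

theorem sites_tr {a s : ℤ × ℤ} : s ∈ sites (D.image (· + a)) ↔ s - a ∈ sites D := by
  rw [mem_sites, mem_sites]
  constructor
  · rintro ⟨v, hv, h1, h2⟩
    refine ⟨v - a, mem_tr.1 hv, ?_, ?_⟩ <;> simp only [Prod.fst_sub, Prod.snd_sub] <;> omega
  · rintro ⟨v, hv, h1, h2⟩
    simp only [Prod.fst_sub, Prod.snd_sub] at h1 h2
    refine ⟨v + a, mem_tr.2 (by simpa using hv), ?_, ?_⟩ <;>
      simp only [Prod.fst_add, Prod.snd_add] <;> omega

theorem hpl_tr {r : Fin 4} {z v a : ℤ × ℤ} : hpl r (z + a) v ↔ hpl r z (v - a) := by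
  rcases f4 r with rfl | rfl | rfl | rfl
  · show z.2 + a.2 ≤ v.2 ↔ z.2 ≤ v.2 - a.2
    omega
  · show v.1 < z.1 + a.1 ↔ v.1 - a.1 < z.1
    omega
  · show v.2 < z.2 + a.2 ↔ v.2 - a.2 < z.2
    omega
  · show z.1 + a.1 ≤ v.1 ↔ z.1 ≤ v.1 - a.1
    omega

theorem Bq_tr {z v a : ℤ × ℤ} : v ∈ Bq (z + a) L ↔ v - a ∈ Bq z L := by
  rw [mem_bq, mem_bq]
  simp only [Prod.fst_sub, Prod.snd_sub, Prod.fst_add, Prod.snd_add]
  omega

/-- **Translation of the boundary data.** -/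
theorem RD.tr (h : RD D P N k rA rB L) (a : ℤ × ℤ) :
    RD (D.image (· + a)) (fun i => P i + a) N k rA rB L where
  k0 := h.k0
  k1 := h.k1
  near := fun i j hi hj d hd hn => h.near i j hi hj d hd (by
    rwa [add_sub_add_right_eq_sub] at hn)
  lip := fun i j => by
    show nm (P i + a - (P j + a)) ≤ _ ∨ nm (P i + a - (P j + a)) ≤ _
    rw [add_sub_add_right_eq_sub]
    exact h.lip i j
  per := by
    show P N + a = P 0 + a
    rw [h.per]
  sA := fun i h1 h2 => by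
    show P i + a = P k + a + _
    rw [h.sA i h1 h2]
    ring
  sB := fun i h1 => by
    show P i + a = P 0 + a + _
    rw [h.sB i h1]
    ring
  sB' := fun i h1 h2 => by
    show P i + a = P 0 + a + _
    rw [h.sB' i h1 h2]
    ring
  dA := fun v hv => by
    show v ∈ D.image (· + a) ↔ hpl rA (P k + a) v
    rw [mem_tr, hpl_tr]
    exact h.dA _ (Bq_tr.1 hv)
  dB := fun v hv => by
    show v ∈ D.image (· + a) ↔ hpl rB (P 0 + a) v
    rw [mem_tr, hpl_tr]
    exact h.dB _ (Bq_tr.1 hv)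
  bd := fun s hs v hv h1 h2 => by
    obtain ⟨i, hi, hi'⟩ := h.bd (s - a) (sites_tr.1 hs) (v - a) (fun h' => hv (mem_tr.2 h'))
      (by simp only [Prod.fst_sub]; omega) (by simp only [Prod.snd_sub]; omega)
    refine ⟨i, hi, ?_⟩
    show P i + a = s
    rw [hi']
    ring

/-- Small boxes in which all squares outside of a translate of the enlargement have one colour. -/
theorem oneC_tr (hp : IsPolygon p) (hD : Encloses p S₀) {x : ℤ × ℤ} {R : ℤ}
    (hR : 2 * R + 1 ≤ n) (hn : 0 < n) (a : ℤ × ℤ) (b : Bool) {η : Cfg}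
    (hη : ∀ v ∈ bxx x R, v ∉ (enl S₀ n).image (· + a) → η v = b) :
    OneC x R ((enl S₀ n).image (· + a)) η := by
  have hb : ∀ {z : ℤ × ℤ}, z ∈ bxx x R ↔ z - a ∈ bxx (x - a) R := by
    intro z
    simp only [bxx, mem_product, mem_Icc, Prod.fst_sub, Prod.snd_sub]
    omega
  refine oneC_of_RC (fun v w h1 h2 h3 h4 => ?_) hη
  obtain ⟨u, k1, k2⟩ := out_RC hp hD (x := x - a) hR hn (hb.1 h1)
    (fun h => h2 (mem_tr.2 h)) (hb.1 h3) (fun h => h4 (mem_tr.2 h))
  refine ⟨u + a, fun z hz => ?_, fun z hz => ?_⟩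
  · obtain ⟨z1, z2, z3, z4⟩ := hz
    simp only [Prod.fst_add, Prod.snd_add] at z1 z2 z3 z4
    obtain ⟨m1, m2⟩ := k1 (z - a) ⟨by simp only [Prod.fst_sub]; omega,
      by simp only [Prod.fst_sub]; omega, by simp only [Prod.snd_sub]; omega,
      by simp only [Prod.snd_sub]; omega⟩
    exact ⟨hb.2 m1, fun h => m2 (mem_tr.1 h)⟩
  · obtain ⟨z1, z2, z3, z4⟩ := hz
    simp only [Prod.fst_add, Prod.snd_add] at z1 z2 z3 z4
    obtain ⟨m1, m2⟩ := k2 (z - a) ⟨by simp only [Prod.fst_sub]; omega,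
      by simp only [Prod.fst_sub]; omega, by simp only [Prod.snd_sub]; omega,
      by simp only [Prod.snd_sub]; omega⟩
    exact ⟨hb.2 m1, fun h => m2 (mem_tr.1 h)⟩

/-- Free boundary conditions, every base site `t`, every translate. -/
theorem reg_free_tr (hp : IsPolygon p) (hD : Encloses p S₀) (hn : 0 < n) {m₀ : ℤ}
    (hm : 2 * m₀ + 1 ≤ n) (t : ℕ) (a : ℤ × ℤ) :
    Dob eta0 ((enl S₀ n).image (· + a)) (fun i => qN p n t i + a) (l * n) ∧
      Reg m₀ ((enl S₀ n).image (· + a)) eta0 := by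
  refine ⟨dob_of (poly_tr (isPolygon_qN hn hp t) a) (encl_tr (encloses_qN hn hp hD t) a)
    good_eta0 ?_ ?_, good_eta0, ?_, ?_⟩
  · intro v _ h
    unfold H718.etaW at h
    rw [decide_eq_true_iff, H718.mem_opW] at h
    obtain ⟨⟨j, h1, h2, -⟩, -⟩ := h
    omega
  · intro s _ _ v _ h
    exact absurd h (by simp [eta0])
  · exact fun x _ R _ _ => Or.inl fun v _ _ => rfl
  · exact fun x R _ hR _ => oneC_tr hp hD (by omega) hn a false fun v _ _ => rfl

/-- Wired boundary conditions, every base site `t`, every translate. -/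
theorem reg_wired_tr (hp : IsPolygon p) (hD : Encloses p S₀) (hn : 0 < n) {m₀ : ℤ}
    (hm : 2 * m₀ + 1 ≤ n) (t : ℕ) (a : ℤ × ℤ) :
    Dob eta1 ((enl S₀ n).image (· + a)) (fun i => qN p n t i + a) 0 ∧
      Reg m₀ ((enl S₀ n).image (· + a)) eta1 := by
  have hq := poly_tr (isPolygon_qN hn hp t) a
  have hE := encl_tr (encloses_qN hn hp hD t) a
  refine ⟨dob_of hq hE good_eta1 ?_ ?_, good_eta1, ?_, ?_⟩
  · intro v _ _
    rfl
  · intro s hs _ v hv _ h1 h2
    obtain ⟨i, hi, h3⟩ := bd_qN hq hE hs hv h1 h2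
    exact ⟨i, Nat.zero_le i, hi.le, h3⟩
  · exact fun x _ R _ _ => Or.inr (Or.inl fun v _ _ => rfl)
  · exact fun x R _ hR _ => oneC_tr hp hD (by omega) hn a true fun v _ _ => rfl

theorem quarter {n : ℕ} (hn : 1 < n) : 2 * ⌊(1 / 4 : ℝ) * n⌋ + 1 ≤ (n : ℤ) := by
  have h2 := Int.floor_le ((1 / 4 : ℝ) * n)
  have h3 : (1 : ℝ) < n := by exact_mod_cast hn
  have h4 : ((2 * ⌊(1 / 4 : ℝ) * n⌋ + 1 : ℤ) : ℝ) < ((n + 1 : ℤ) : ℝ) := by
    push_cast
    linarith
  have h5 : 2 * ⌊(1 / 4 : ℝ) * n⌋ + 1 < (n : ℤ) + 1 := by exact_mod_cast h4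
  omega

/-- **Free and wired enlargements**, all base sites (also the corners), all translates. -/
theorem s_REG_fw (hp : IsPolygon p) (hD : Encloses p S₀) {bc : Bc}
    (hbc : bc = Bc.free ∨ bc = Bc.wired) : ∃ c : ℝ, 0 < c ∧ ∀ᶠ n : ℕ in atTop,
      ∀ (t : ℕ) (a : ℤ × ℤ), ∃ η : Cfg,
        Dob η ((enl S₀ n).image (· + a)) (fun i => qN p n t i + a) (bc.ka l n t) ∧
          Reg ⌊c * (n : ℝ)⌋ ((enl S₀ n).image (· + a)) η := by
  refine ⟨1 / 4, by norm_num, ?_⟩
  filter_upwards [eventually_gt_atTop 1] with n hn t a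
  rcases hbc with rfl | rfl
  · exact ⟨eta0, reg_free_tr hp hD (by omega) (quarter hn) t a⟩
  · exact ⟨eta1, reg_wired_tr hp hD (by omega) (quarter hn) t a⟩

/-- **The translates of the enlargements are regular**, uniformly in the translation. -/
theorem s_REG_tr (hp : IsPolygon p) (hD : Encloses p S₀) {tp : ℝ} (h0 : 0 < tp) (h1 : tp < 1)
    {bc : Bc} (hbc : BcIn l bc) : ∃ c : ℝ, 0 < c ∧ ∀ᶠ n : ℕ in atTop, ∀ a : ℤ × ℤ, ∃ η : Cfg,
      Dob η ((enl S₀ n).image (· + a)) (fun i => qN p n ⌊tp * (n : ℝ)⌋₊ i + a)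
        (bc.ka l n ⌊tp * (n : ℝ)⌋₊) ∧ Reg ⌊c * (n : ℝ)⌋ ((enl S₀ n).image (· + a)) η := by
  have ev : ∀ {x : ℝ} (y : ℝ), 0 < x → ∀ᶠ n : ℕ in atTop, y < x * n := fun y hx =>
    (tendsto_natCast_atTop_atTop.const_mul_atTop hx).eventually_gt_atTop y
  cases bc with
  | free =>
    obtain ⟨c, hc, h⟩ := s_REG_fw hp hD (bc := Bc.free) (Or.inl rfl)
    exact ⟨c, hc, h.mono fun n hn a => hn _ a⟩
  | wired =>
    obtain ⟨c, hc, h⟩ := s_REG_fw hp hD (bc := Bc.wired) (Or.inr rfl)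
    exact ⟨c, hc, h.mono fun n hn a => hn _ a⟩
  | dob ia ta =>
    obtain ⟨b1, b2, b3, b4⟩ := hbc
    obtain ⟨δ, hδ, d1, d2, d3, d4⟩ : ∃ δ : ℝ, 0 < δ ∧ 2 * δ ≤ tp ∧ 2 * δ ≤ 1 - tp ∧ 2 * δ ≤ ta ∧
        2 * δ ≤ 1 - ta := by
      refine ⟨min (min tp (1 - tp)) (min ta (1 - ta)) / 2, ?_, ?_, ?_, ?_, ?_⟩
      · have : 0 < min (min tp (1 - tp)) (min ta (1 - ta)) := by
          rw [lt_min_iff, lt_min_iff, lt_min_iff]
          exact ⟨⟨h0, by linarith⟩, b3, by linarith⟩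
        linarith
      · have := (min_le_left (min tp (1 - tp)) (min ta (1 - ta))).trans (min_le_left _ _)
        linarith
      · have := (min_le_left (min tp (1 - tp)) (min ta (1 - ta))).trans (min_le_right _ _)
        linarith
      · have := (min_le_right (min tp (1 - tp)) (min ta (1 - ta))).trans (min_le_left _ _)
        linarith
      · have := (min_le_right (min tp (1 - tp)) (min ta (1 - ta))).trans (min_le_right _ _)
        linarith
    refine ⟨δ / 200, by positivity, ?_⟩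
    filter_upwards [ev 1000 hδ, ev 1000 (show 0 < δ / 200 by positivity)] with n hn hn' a
    have hn0 : 0 < n := by
      rcases Nat.eq_zero_or_pos n with h | h
      · rw [h] at hn
        norm_num at hn
      · exact h
    set t := ⌊tp * (n : ℝ)⌋₊ with ht
    set σ := ⌊ta * (n : ℝ)⌋₊ with hσ
    set L : ℤ := ⌊δ * (n : ℝ)⌋ with hLd
    have t1 : (t : ℝ) ≤ tp * n := Nat.floor_le (by positivity)
    have t2 : tp * n < t + 1 := Nat.lt_floor_add_one _
    have s1 : (σ : ℝ) ≤ ta * n := Nat.floor_le (by positivity)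
    have s2 : ta * n < σ + 1 := Nat.lt_floor_add_one _
    have L1 : (L : ℝ) ≤ δ * n := Int.floor_le _
    have L2 : δ * n < L + 1 := Int.lt_floor_add_one _
    have hnr : (0 : ℝ) < n := by exact_mod_cast hn0
    have g1 : L ≤ (t : ℤ) := by
      have : (L : ℝ) ≤ ((t : ℤ) : ℝ) := by
        push_cast
        nlinarith
      exact_mod_cast this
    have g2 : (t : ℤ) + L ≤ n := by
      have : (((t : ℤ) + L : ℤ) : ℝ) ≤ ((n : ℤ) : ℝ) := by
        push_cast
        nlinarith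
      exact_mod_cast this
    have g3 : L ≤ (σ : ℤ) := by
      have : (L : ℝ) ≤ ((σ : ℤ) : ℝ) := by
        push_cast
        nlinarith
      exact_mod_cast this
    have g4 : (σ : ℤ) + L ≤ n := by
      have : (((σ : ℤ) + L : ℤ) : ℝ) ≤ ((n : ℤ) : ℝ) := by
        push_cast
        nlinarith
      exact_mod_cast this
    have g0 : 1 ≤ L := by
      have : ((1 : ℤ) : ℝ) ≤ (L : ℝ) := by
        push_cast
        linarith
      exact_mod_cast this
    set m₀ : ℤ := ⌊δ / 200 * (n : ℝ)⌋ with hm₀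
    have m1 : (m₀ : ℝ) ≤ δ / 200 * n := Int.floor_le _
    have m2 : δ / 200 * n < m₀ + 1 := Int.lt_floor_add_one _
    have g5 : 1 ≤ m₀ := by
      have : ((1 : ℤ) : ℝ) ≤ (m₀ : ℝ) := by
        push_cast
        linarith
      exact_mod_cast this
    have g6 : 4 * (9 * (2 * m₀ + 3) + (2 * m₀ + 3)) < L := by
      have : ((4 * (9 * (2 * m₀ + 3) + (2 * m₀ + 3)) : ℤ) : ℝ) < (L : ℝ) := by
        push_cast
        linarith
      exact_mod_cast this
    have hRD := (rd_enl (S₀ := S₀) (n := n) (t := t) hp hD g0 b1 b2 g1 g2 g3 g4).tr a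
    have hl : NeZero l := ⟨by omega⟩
    have hka : Bc.ka l n t (.dob ia ta) = ia * n + σ - t := by
      show kOf l n t ia σ = _
      unfold kOf
      have e1 : 1 * n ≤ ia * n := Nat.mul_le_mul_right n b1
      rw [one_mul] at e1
      rw [if_pos (by omega)]
    refine ⟨etaR ((enl S₀ n).image (· + a)) (fun i => PN p n (i + t) + a) (l * n)
      (ia * n + σ - t) (pdir p ia) (pdir p 0) (9 * (2 * m₀ + 3)) (2 * m₀ + 3), ?_, ?_⟩
    · rw [hka]
      exact hRD.dob (by omega) (by omega) g6 (poly_tr (isPolygon_qN hn0 hp t) a)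
        (encl_tr (encloses_qN hn0 hp hD t) a) fun i => by
          show qN p n t (i : ZMod (l * n)) + a = PN p n (i + t) + a
          rw [qN_nat hn0 t i]
    · refine hRD.reg g5 le_rfl le_rfl g6 fun x R b η hR hη => ?_
      refine oneC_tr hp hD ?_ hn0 a b hη
      omega

end Vale.Agent.P167.H825.Reg
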