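import Vale.Agent.P167.H592.T.Row2

/-!
# P167, general `q`, S_REG: near sites of the enlarged polygon

Sites of the enlarged polygon at distance at most `d`, `3 d < n`, have indices at distance at most
`2 d` along the polygon.
-/

namespace Vale.Agent.P167.H825.Reg

open Vale.Agent.P167.Enl
open Vale.Agent.P167.E6 (IsPolygon Encloses dir face)
open Vale.Agent.P167.H825 (enl pdir)

variable {l : ℕ} {p : ZMod l → ℤ × ℤ} {n : ℕ}

theorem nm_nn (v : ℤ × ℤ) : 0 ≤ nm v := le_max_of_le_left (abs_nonneg _)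

theorem PN_vp (A : ℕ) : PN p n A = vp p n (A / n) ((A % n : ℕ) : ℤ) := rfl

/-- Both ends. -/
theorem near_end (hp : IsPolygon p) {i i' : ℕ} (hi : i < l) (hi' : i' < l) (hne : i ≠ i')
    {σ σ' d : ℤ} (h0' : 0 ≤ σ') (h1' : σ' ≤ n)
    (hd : 3 * d < n) (h : nm (vp p n i σ - vp p n i' σ') ≤ d) : σ ≤ d ∨ (n : ℤ) - σ ≤ d := by
  by_contra hc
  push Not at hc
  have hd0 : 0 ≤ d := (nm_nn _).trans h
  have := vp_far (n := n) hp hi hi' hne (σ := σ) (m := d + 1) h0' h1' (by omega) (by omega)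
    (by omega)
  omega

theorem nm_vp0 (i : ℕ) {σ : ℤ} (h0 : 0 ≤ σ) : nm (vp p n i σ - (n : ℤ) • p (i : ℕ)) = σ := by
  unfold vp vz
  rw [add_sub_cancel_left, nm_dir, abs_of_nonneg h0]

theorem nm_vp1 (hp : IsPolygon p) (i : ℕ) {σ : ℤ} (h0 : σ ≤ n) :
    nm (vp p n i σ - (n : ℤ) • p ((i : ZMod l) + 1)) = n - σ := by
  unfold vp vz
  rw [pdir_step hp, smul_add, add_sub_add_left_eq_sub, ← sub_smul, nm_dir,
    abs_of_nonpos (by omega)]
  ring

theorem cast_lt {i i' : ℕ} (hi : i < l) (hi' : i' < l) (h : (i : ZMod l) = i') : i = i' := by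
  rw [ZMod.natCast_eq_natCast_iff'] at h
  rwa [Nat.mod_eq_of_lt hi, Nat.mod_eq_of_lt hi'] at h

/-- **Indices of near sites.** -/
theorem near_core (hp : IsPolygon p) (hn : 0 < n) {A B : ℕ} (hA : A < l * n) (hB : B < l * n)
    {d : ℤ} (hd : 3 * d < n) (h : nm (PN p n A - PN p n B) ≤ d) :
    ∃ c : ℤ, |(A : ℤ) - B + c * (l * n)| ≤ 2 * d := by
  have hd0 : 0 ≤ d := (nm_nn _).trans h
  rw [PN_vp, PN_vp] at h
  have hAm := Nat.div_add_mod' A n
  have hBm := Nat.div_add_mod' B n
  have hAl := Nat.mod_lt A hn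
  have hBl := Nat.mod_lt B hn
  have hi : A / n < l := Nat.div_lt_of_lt_mul (by rwa [mul_comm])
  have hi' : B / n < l := Nat.div_lt_of_lt_mul (by rwa [mul_comm])
  set i := A / n
  set j := B / n
  set σ := A % n
  set τ := B % n
  have eA : (A : ℤ) = i * n + σ := by exact_mod_cast hAm.symm
  have eB : (B : ℤ) = j * n + τ := by exact_mod_cast hBm.symm
  by_cases hij : i = j
  · refine ⟨0, ?_⟩
    rw [← hij] at h eB
    rw [vp_same] at h
    rw [eA, eB]
    have : (i : ℤ) * n + σ - (i * n + τ) + 0 * (l * n) = (σ : ℤ) - τ := by ring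
    rw [this]
    omega
  · have s0 : (0 : ℤ) ≤ σ := Int.natCast_nonneg σ
    have t0 : (0 : ℤ) ≤ τ := Int.natCast_nonneg τ
    have s1 : (σ : ℤ) ≤ n := by exact_mod_cast hAl.le
    have t1 : (τ : ℤ) ≤ n := by exact_mod_cast hBl.le
    have k1 := near_end hp hi hi' hij (σ := (σ : ℤ)) (σ' := (τ : ℤ)) t0 t1 hd h
    have k2 := near_end hp hi' hi (Ne.symm hij) (σ := (τ : ℤ)) (σ' := (σ : ℤ)) s0 s1 hd
      (by rw [nm_sub_comm]; exact h)
    rcases k1 with k1 | k1 <;> rcases k2 with k2 | k2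
    · exfalso
      have h1 := nm_vp0 (p := p) (n := n) i (σ := (σ : ℤ)) (by omega)
      have h2 := nm_vp0 (p := p) (n := n) j (σ := (τ : ℤ)) (by omega)
      have h3 := nm_tri ((n : ℤ) • p (i : ℕ)) (vp p n i σ) ((n : ℤ) • p (j : ℕ))
      have h4 := nm_tri (vp p n i σ) (vp p n j τ) ((n : ℤ) • p (j : ℕ))
      rw [nm_sub_comm] at h1
      have h5 : p (i : ℕ) = p (j : ℕ) := by
        by_contra h6
        have := verts_dist (n := n) h6
        omega
      exact hij (cast_lt hi hi' (hp.2.1 h5))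
    · have h1 := nm_vp0 (p := p) (n := n) i (σ := (σ : ℤ)) (by omega)
      have h2 := nm_vp1 (n := n) hp j (σ := (τ : ℤ)) (by omega)
      have h3 := nm_tri ((n : ℤ) • p (i : ℕ)) (vp p n i σ) ((n : ℤ) • p ((j : ZMod l) + 1))
      have h4 := nm_tri (vp p n i σ) (vp p n j τ) ((n : ℤ) • p ((j : ZMod l) + 1))
      rw [nm_sub_comm] at h1
      have h5 : p (i : ℕ) = p ((j : ZMod l) + 1) := by
        by_contra h6
        have := verts_dist (n := n) h6
        omega
      have h6 : (i : ZMod l) = ((j + 1 : ℕ) : ZMod l) := by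
        push_cast
        exact hp.2.1 h5
      rcases Nat.lt_or_ge (j + 1) l with h7 | h7
      · have h8 := cast_lt hi h7 h6
        refine ⟨0, ?_⟩
        rw [eA, eB, h8]
        have : ((j + 1 : ℕ) : ℤ) * n + σ - (j * n + τ) + 0 * (l * n) = n + σ - τ := by
          push_cast
          ring
        rw [this, abs_of_nonneg (by omega)]
        omega
      · have h8 : j + 1 = l := by omega
        rw [h8, ZMod.natCast_self] at h6
        have h9 : i = 0 := cast_lt (l := l) (i' := 0) hi (lt_of_le_of_lt (Nat.zero_le _) hi) (by rw [h6, Nat.cast_zero])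
        refine ⟨1, ?_⟩
        rw [eA, eB, h9]
        have h10 : (l : ℤ) = j + 1 := by exact_mod_cast h8.symm
        have : ((0 : ℕ) : ℤ) * n + σ - (j * n + τ) + 1 * (l * n) = n + σ - τ := by
          rw [h10]
          push_cast
          ring
        rw [this, abs_of_nonneg (by omega)]
        omega
    · have h1 := nm_vp1 (n := n) hp i (σ := (σ : ℤ)) (by omega)
      have h2 := nm_vp0 (p := p) (n := n) j (σ := (τ : ℤ)) (by omega)
      have h3 := nm_tri ((n : ℤ) • p ((i : ZMod l) + 1)) (vp p n i σ) ((n : ℤ) • p (j : ℕ))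
      have h4 := nm_tri (vp p n i σ) (vp p n j τ) ((n : ℤ) • p (j : ℕ))
      rw [nm_sub_comm] at h1
      have h5 : p ((i : ZMod l) + 1) = p (j : ℕ) := by
        by_contra h6
        have := verts_dist (n := n) h6
        omega
      have h6 : (j : ZMod l) = ((i + 1 : ℕ) : ZMod l) := by
        push_cast
        exact (hp.2.1 h5).symm
      rcases Nat.lt_or_ge (i + 1) l with h7 | h7
      · have h8 := cast_lt hi' h7 h6
        refine ⟨0, ?_⟩
        rw [eA, eB, h8]
        have : (i : ℤ) * n + σ - (((i + 1 : ℕ) : ℤ) * n + τ) + 0 * (l * n) = -(n + τ - σ) := by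
          push_cast
          ring
        rw [this, abs_neg, abs_of_nonneg (by omega)]
        omega
      · have h8 : i + 1 = l := by omega
        rw [h8, ZMod.natCast_self] at h6
        have h9 : j = 0 := cast_lt (l := l) (i' := 0) hi' (lt_of_le_of_lt (Nat.zero_le _) hi) (by rw [h6, Nat.cast_zero])
        refine ⟨-1, ?_⟩
        rw [eA, eB, h9]
        have h10 : (l : ℤ) = i + 1 := by exact_mod_cast h8.symm
        have : (i : ℤ) * n + σ - (((0 : ℕ) : ℤ) * n + τ) + -1 * (l * n) = -(n + τ - σ) := by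
          rw [h10]
          push_cast
          ring
        rw [this, abs_neg, abs_of_nonneg (by omega)]
        omega
    · exfalso
      have h1 := nm_vp1 (n := n) hp i (σ := (σ : ℤ)) (by omega)
      have h2 := nm_vp1 (n := n) hp j (σ := (τ : ℤ)) (by omega)
      have h3 := nm_tri ((n : ℤ) • p ((i : ZMod l) + 1)) (vp p n i σ)
        ((n : ℤ) • p ((j : ZMod l) + 1))
      have h4 := nm_tri (vp p n i σ) (vp p n j τ) ((n : ℤ) • p ((j : ZMod l) + 1))
      rw [nm_sub_comm] at h1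
      have h5 : p ((i : ZMod l) + 1) = p ((j : ZMod l) + 1) := by
        by_contra h6
        have := verts_dist (n := n) h6
        omega
      exact hij (cast_lt hi hi' (add_right_cancel (hp.2.1 h5)))

/-- **Indices of near sites**, in a window of length `l n`. -/
theorem near_idx (hp : IsPolygon p) (hn : 0 < n) {t a b : ℕ} (ha : a ≤ l * n) (hb : b ≤ l * n)
    {d : ℤ} (hd : 3 * d < n) (h : nm (PN p n (a + t) - PN p n (b + t)) ≤ d) :
    |(a : ℤ) - b| ≤ 2 * d ∨ (l * n : ℤ) - |(a : ℤ) - b| ≤ 2 * d := by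
  have hl := hp.1
  have hln : 0 < l * n := by positivity
  have hd0 : 0 ≤ d := (nm_nn _).trans h
  have hbig : (2 * d : ℤ) < l * n := by
    have : (1 : ℤ) ≤ l := by exact_mod_cast (by omega : 1 ≤ l)
    nlinarith
  rw [← PN_mod hn (a + t), ← PN_mod hn (b + t)] at h
  obtain ⟨c, hc⟩ := near_core hp hn (Nat.mod_lt _ hln) (Nat.mod_lt _ hln) hd h
  have e1 := Nat.div_add_mod (a + t) (l * n)
  have e2 := Nat.div_add_mod (b + t) (l * n)
  obtain ⟨c', hc'⟩ : ∃ c' : ℤ, ((a + t) % (l * n) : ℕ) - ((b + t) % (l * n) : ℕ) + c * (l * n) =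
      (a : ℤ) - b + c' * (l * n) := by
    refine ⟨c - (((a + t) / (l * n) : ℕ) : ℤ) + (((b + t) / (l * n) : ℕ) : ℤ), ?_⟩
    have e1' : (((l * n : ℕ) : ℤ)) * (((a + t) / (l * n) : ℕ) : ℤ) +
        (((a + t) % (l * n) : ℕ) : ℤ) = a + t := by exact_mod_cast e1
    have e2' : (((l * n : ℕ) : ℤ)) * (((b + t) / (l * n) : ℕ) : ℤ) +
        (((b + t) % (l * n) : ℕ) : ℤ) = b + t := by exact_mod_cast e2
    push_cast at e1' e2' ⊢
    linear_combination e1' - e2'
  rw [hc'] at hc
  have hN : (0 : ℤ) < l * n := by exact_mod_cast hln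
  have ha' : (a : ℤ) ≤ l * n := by exact_mod_cast ha
  have hb' : (b : ℤ) ≤ l * n := by exact_mod_cast hb
  rw [abs_le] at hc
  have h1 : -2 < c' := by
    by_contra h2
    push Not at h2
    nlinarith
  have h2 : c' < 2 := by
    by_contra h2
    push Not at h2
    nlinarith
  have h3 : c' = -1 ∨ c' = 0 ∨ c' = 1 := by omega
  rcases h3 with h3 | h3 | h3 <;> rw [h3] at hc
  · right
    rcases abs_cases ((a : ℤ) - b) with ⟨h4, h5⟩ | ⟨h4, h5⟩ <;> rw [h4] <;> linarith
  · left
    rw [abs_le]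
    constructor <;> linarith
  · right
    rcases abs_cases ((a : ℤ) - b) with ⟨h4, h5⟩ | ⟨h4, h5⟩ <;> rw [h4] <;> linarith

/-- The path is Lipschitz. -/
theorem lip_add (hp : IsPolygon p) (hn : 0 < n) (A c : ℕ) :
    nm (PN p n (A + c) - PN p n A) ≤ c := by
  induction c with
  | zero => simp [nm]
  | succ c ih =>
    have h1 := PN_succ hn hp (A + c)
    have h2 := nm_tri (PN p n (A + (c + 1))) (PN p n (A + c)) (PN p n A)
    have h3 : nm (PN p n (A + (c + 1)) - PN p n (A + c)) = 1 := by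
      rw [← add_assoc, h1, add_sub_cancel_left]
      have := nm_dir (r := pdir p ((A + c) / n)) (1 : ℤ)
      rwa [one_smul, abs_one] at this
    push_cast
    omega

theorem lip (hp : IsPolygon p) (hn : 0 < n) (A B : ℕ) :
    nm (PN p n A - PN p n B) ≤ |(A : ℤ) - B| := by
  rcases le_total A B with h | h
  · obtain ⟨c, rfl⟩ := Nat.exists_eq_add_of_le h
    rw [nm_sub_comm]
    refine (lip_add hp hn A c).trans ?_
    push_cast
    rw [sub_add_cancel_left, abs_neg, Nat.abs_cast]
  · obtain ⟨c, rfl⟩ := Nat.exists_eq_add_of_le h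
    refine (lip_add hp hn B c).trans ?_
    push_cast
    rw [add_sub_cancel_left, Nat.abs_cast]

/-- **Straight pieces.** -/
theorem straight (hp : IsPolygon p) (hn : 0 < n) {i σ A B : ℕ} (hA : A = i * n + σ)
    (h0 : σ < n) (h1 : i * n ≤ B) (h2 : B ≤ (i + 1) * n) :
    PN p n B = PN p n A + ((B : ℤ) - A) • dir (pdir p i) := by
  obtain ⟨τ, rfl⟩ := Nat.exists_eq_add_of_le h1
  have h3 : τ ≤ n := by
    rw [add_mul, one_mul] at h2
    omega
  rw [hA, PN_lin hn h0]
  rcases h3.lt_or_eq with h4 | h4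
  · rw [PN_lin hn h4, add_assoc, ← add_smul]
    congr 2
    push_cast
    ring
  · rw [h4]
    have e : i * n + n = (i + 1) * n + 0 := by ring
    rw [e, PN_lin hn hn]
    push_cast
    rw [pdir_step hp, zero_smul, add_zero, smul_add, add_assoc, ← add_smul]
    congr 2
    ring

end Vale.Agent.P167.H825.Reg
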