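import Vale.Agent.P167.H825.Reg.Eta3
import Vale.Agent.P167.H825.Reg.Near
import Vale.Agent.P167.H592.R.Out

/-!
# P167, general `q`: S_REG

The enlargements of a lattice polygon with free, wired or Dobrushin boundary conditions are regular
up to the scale `c n`, for a suitable configuration outside.
-/

namespace Vale.Agent.P167.H825.Reg

open Finset Filter Topology
open Vale.Agent.P167.FK
open Vale.Agent.P167.BR (sites mem_sites)
open Vale.Agent.P167.E6 (IsPolygon Encloses dir face)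
open Vale.Agent.P167.H167.Q (hpl hcl lsd FlR Bd3 Reg S_REG BcIn)
open Vale.Agent.P167.H166 (bxx mem_bxx)
open Vale.Agent.P167.H562.QM (OneP OneC QC mem_image_sh)
open Vale.Agent.P167.Enl
open Vale.Agent.P167.H506.Q (mem_bq)
open Vale.Agent.P167.H718 (Dob dob_of exists_bd)
open Vale.Agent.P167.H825 (enl pdir)
open Vale.Agent.P167.H825.Q (Bc)

variable {l : ℕ} {p : ZMod l → ℤ × ℤ} {S₀ : Finset (ℤ × ℤ)} {n t : ℕ}

/-- Boundary sites. -/
theorem bd_qN {N : ℕ} {q : ZMod N → ℤ × ℤ} {D : Finset (ℤ × ℤ)} (hq : IsPolygon q)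
    (hD : Encloses q D) {s : ℤ × ℤ} (hs : s ∈ sites D) {v : ℤ × ℤ} (hv : v ∉ D)
    (h1 : s.1 = v.1 ∨ s.1 = v.1 + 1) (h2 : s.2 = v.2 ∨ s.2 = v.2 + 1) :
    ∃ a : ℕ, a < N ∧ q (a : ZMod N) = s := by
  have hN : NeZero N := ⟨by have := hq.1; omega⟩
  have hr : ∃ r, face s r = v := by
    obtain ⟨a, b⟩ := s
    obtain ⟨c, d⟩ := v
    simp only at h1 h2
    have f0 : face (a, b) 0 = (a + 0, b + 0) := rfl
    have f1 : face (a, b) 1 = (a + -1, b + 0) := rfl
    have f2 : face (a, b) 2 = (a + -1, b + -1) := rfl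
    have f3 : face (a, b) 3 = (a + 0, b + -1) := rfl
    rcases h1 with h1 | h1 <;> rcases h2 with h2 | h2
    · exact ⟨0, by rw [f0]; simp only [Prod.mk.injEq]; omega⟩
    · exact ⟨3, by rw [f3]; simp only [Prod.mk.injEq]; omega⟩
    · exact ⟨1, by rw [f1]; simp only [Prod.mk.injEq]; omega⟩
    · exact ⟨2, by rw [f2]; simp only [Prod.mk.injEq]; omega⟩
  obtain ⟨r, rfl⟩ := hr
  obtain ⟨i, hi⟩ := exists_bd hq hD hs hv
  exact ⟨i.val, ZMod.val_lt i, by rw [ZMod.natCast_zmod_val]; exact hi⟩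

theorem abs3 {a b d N : ℤ} (h : |a - b| ≤ 2 * d ∨ N - |a - b| ≤ 2 * d) :
    (-(2 * d) ≤ a - b ∧ a - b ≤ 2 * d) ∨ N - (a - b) ≤ 2 * d ∨ N + (a - b) ≤ 2 * d := by
  rcases abs_cases (a - b) with ⟨h1, h2⟩ | ⟨h1, h2⟩ <;> rw [h1] at h <;> omega

/-- **The boundary of the enlargement** with two junctions inside of sides. -/
theorem rd_enl (hp : IsPolygon p) (hD : Encloses p S₀) {ia σ : ℕ} {L : ℤ} (hL : 1 ≤ L)
    (hia : 0 < ia) (hial : ia < l) (h1 : L ≤ t) (h2 : (t : ℤ) + L ≤ n) (h3 : L ≤ σ)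
    (h4 : (σ : ℤ) + L ≤ n) :
    RD (enl S₀ n) (fun a => PN p n (a + t)) (l * n) (ia * n + σ - t) (pdir p ia) (pdir p 0) L := by
  have hn : 0 < n := by omega
  have hl : NeZero l := ⟨by omega⟩
  have e1 : 1 * n ≤ ia * n := Nat.mul_le_mul_right n hia
  have e2 : (ia + 1) * n ≤ l * n := Nat.mul_le_mul_right n hial
  rw [one_mul] at e1
  rw [add_mul, one_mul] at e2
  have hk : ia * n + σ - t + t = ia * n + σ := by omega
  have hq := isPolygon_qN hn hp t
  have hE := encloses_qN hn hp hD t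
  have hper : PN p n (l * n + t) = PN p n t := by rw [add_comm, PN_add_l hn]
  have hpd : pdir p l = pdir p 0 := by
    have := pdir_add (p := p) 0
    rwa [zero_add] at this
  refine ⟨by omega, by push_cast; omega, ?_, ?_, ?_, ?_, ?_, ?_, ?_, ?_, ?_⟩
  · intro a b ha hb d hd h
    have h5 := near_idx (t := t) hp hn ha hb (d := d) (by omega) h
    have h6 := abs3 h5
    push_cast
    exact h6
  · intro a b
    have h5 := lip hp hn (a + t) (b + t)
    have h6 : ((a + t : ℕ) : ℤ) - ((b + t : ℕ) : ℤ) = a - b := by push_cast; ring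
    rw [h6] at h5
    show nm (PN p n (a + t) - PN p n (b + t)) ≤ _ ∨ nm (PN p n (a + t) - PN p n (b + t)) ≤ _
    rcases abs_cases ((a : ℤ) - b) with ⟨h7, h8⟩ | ⟨h7, h8⟩ <;> rw [h7] at h5 <;> omega
  · show PN p n (l * n + t) = PN p n (0 + t)
    rw [hper, zero_add]
  · intro a ha hb
    show PN p n (a + t) = PN p n (ia * n + σ - t + t) + _
    rw [hk, straight hp hn (i := ia) (σ := σ) (A := ia * n + σ) (B := a + t) rfl (by omega)
      (by omega) (by rw [add_mul, one_mul]; omega)]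
    congr 2
    omega
  · intro a ha
    show PN p n (a + t) = PN p n (0 + t) + _
    rw [zero_add, straight hp hn (i := 0) (σ := t) (A := t) (B := a + t) (by omega) (by omega)
      (by omega) (by rw [zero_add, one_mul]; omega)]
    congr 2
    omega
  · intro a ha hb
    show PN p n (a + t) = PN p n (0 + t) + _
    rw [zero_add, straight hp hn (i := l) (σ := t) (A := l * n + t) (B := a + t) rfl (by omega)
      (by push_cast at hb; omega) (by rw [add_mul, one_mul]; omega), hper, hpd]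
    congr 2
    omega
  · intro v hv
    have h5 : PN p n (ia * n + σ - t + t) = PN p n (ia * n + σ) := by rw [hk]
    have h6 : (ia * n + σ) % n = σ := by
      rw [add_comm, Nat.add_mul_mod_self_right, Nat.mod_eq_of_lt (by omega)]
    have h7 : (ia * n + σ) / n = ia := by
      rw [add_comm, Nat.add_mul_div_right _ _ hn, Nat.div_eq_of_lt (by omega), zero_add]
    change v ∈ Bq (PN p n (ia * n + σ - t + t)) L at hv
    show v ∈ enl S₀ n ↔ hpl (pdir p ia) (PN p n (ia * n + σ - t + t)) v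
    rw [h5] at hv ⊢
    have := enl_side_PN hp hD hn (k := ia * n + σ) (ρ := L) (by rw [h6]; exact h3)
      (by rw [h6]; omega) hv
    rwa [h7] at this
  · intro v hv
    have h6 : t % n = t := Nat.mod_eq_of_lt (by omega)
    have h7 : t / n = 0 := Nat.div_eq_of_lt (by omega)
    change v ∈ Bq (PN p n (0 + t)) L at hv
    show v ∈ enl S₀ n ↔ hpl (pdir p 0) (PN p n (0 + t)) v
    rw [zero_add] at hv ⊢
    have := enl_side_PN hp hD hn (k := t) (ρ := L) (by rw [h6]; exact h1) (by rw [h6]; omega) hv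
    rwa [h7] at this
  · intro s hs v hv k1 k2
    obtain ⟨a, ha, hs'⟩ := bd_qN hq hE hs hv k1 k2
    refine ⟨a, ha, ?_⟩
    rw [← hs', qN_nat hn]

/-- Free boundary conditions. -/
theorem reg_free (hp : IsPolygon p) (hD : Encloses p S₀) (hn : 0 < n) {m₀ : ℤ}
    (hm : 2 * m₀ + 1 ≤ n) : Dob eta0 (enl S₀ n) (qN p n t) (l * n) ∧ Reg m₀ (enl S₀ n) eta0 := by
  refine ⟨dob_of (isPolygon_qN hn hp t) (encloses_qN hn hp hD t) good_eta0 ?_ ?_, good_eta0, ?_, ?_⟩
  · intro v _ h
    unfold H718.etaW at h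
    rw [decide_eq_true_iff, H718.mem_opW] at h
    obtain ⟨⟨j, h1, h2, -⟩, -⟩ := h
    omega
  · intro s _ _ v _ h
    exact absurd h (by simp [eta0])
  · exact fun x _ R _ _ => Or.inl fun v _ _ => rfl
  · exact fun x R _ hR _ => oneC_const hp hD (by omega) hn false fun v _ _ => rfl

/-- Wired boundary conditions. -/
theorem reg_wired (hp : IsPolygon p) (hD : Encloses p S₀) (hn : 0 < n) {m₀ : ℤ}
    (hm : 2 * m₀ + 1 ≤ n) : Dob eta1 (enl S₀ n) (qN p n t) 0 ∧ Reg m₀ (enl S₀ n) eta1 := by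
  have hq := isPolygon_qN hn hp t
  have hE := encloses_qN hn hp hD t
  refine ⟨dob_of hq hE good_eta1 ?_ ?_, good_eta1, ?_, ?_⟩
  · intro v _ _
    rfl
  · intro s hs _ v hv _ h1 h2
    obtain ⟨a, ha, h3⟩ := bd_qN hq hE hs hv h1 h2
    exact ⟨a, Nat.zero_le a, ha.le, h3⟩
  · exact fun x _ R _ _ => Or.inr (Or.inl fun v _ _ => rfl)
  · exact fun x R _ hR _ => oneC_const hp hD (by omega) hn true fun v _ _ => rfl

/-- **The enlargements are regular.** -/
theorem s_REG : S_REG := by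
  intro l _ p S₀ hp hD tp h0 h1 bc hbc
  have ev : ∀ {x : ℝ} (y : ℝ), 0 < x → ∀ᶠ n : ℕ in atTop, y < x * n := fun y hx =>
    (tendsto_natCast_atTop_atTop.const_mul_atTop hx).eventually_gt_atTop y
  cases bc with
  | free =>
    refine ⟨1 / 4, by norm_num, ?_⟩
    filter_upwards [eventually_gt_atTop 1] with n hn
    have hm : 2 * ⌊(1 / 4 : ℝ) * n⌋ + 1 ≤ (n : ℤ) := by
      have h2 := Int.floor_le ((1 / 4 : ℝ) * n)
      have h3 : (1 : ℝ) < n := by exact_mod_cast hn
      have h4 : ((2 * ⌊(1 / 4 : ℝ) * n⌋ + 1 : ℤ) : ℝ) < ((n + 1 : ℤ) : ℝ) := by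
        push_cast
        linarith
      have h5 : 2 * ⌊(1 / 4 : ℝ) * n⌋ + 1 < (n : ℤ) + 1 := by exact_mod_cast h4
      omega
    exact ⟨eta0, reg_free hp hD (by omega) hm⟩
  | wired =>
    refine ⟨1 / 4, by norm_num, ?_⟩
    filter_upwards [eventually_gt_atTop 1] with n hn
    have hm : 2 * ⌊(1 / 4 : ℝ) * n⌋ + 1 ≤ (n : ℤ) := by
      have h2 := Int.floor_le ((1 / 4 : ℝ) * n)
      have h3 : (1 : ℝ) < n := by exact_mod_cast hn
      have h4 : ((2 * ⌊(1 / 4 : ℝ) * n⌋ + 1 : ℤ) : ℝ) < ((n + 1 : ℤ) : ℝ) := by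
        push_cast
        linarith
      have h5 : 2 * ⌊(1 / 4 : ℝ) * n⌋ + 1 < (n : ℤ) + 1 := by exact_mod_cast h4
      omega
    exact ⟨eta1, reg_wired hp hD (by omega) hm⟩
  | dob ia ta =>
    obtain ⟨b1, b2, b3, b4⟩ := hbc
    obtain ⟨δ, hδ, d1, d2, d3, d4⟩ : ∃ δ : ℝ, 0 < δ ∧ 2 * δ ≤ tp ∧ 2 * δ ≤ 1 - tp ∧ 2 * δ ≤ ta ∧
        2 * δ ≤ 1 - ta := by
      refine ⟨min (min tp (1 - tp)) (min ta (1 - ta)) / 2, ?_, ?_, ?_, ?_, ?_⟩
      · have : 0 < min (min tp (1 - tp)) (min ta (1 - ta)) := by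
          rw [lt_min_iff, lt_min_iff, lt_min_iff]
          exact ⟨⟨h0, by linarith⟩, b3, by linarith⟩
        linarith
      · have := (min_le_left (min tp (1 - tp)) (min ta (1 - ta))).trans (min_le_left _ _)
        linarith
      · have := (min_le_left (min tp (1 - tp)) (min ta (1 - ta))).trans (min_le_right _ _)
        linarith
      · have := (min_le_right (min tp (1 - tp)) (min ta (1 - ta))).trans (min_le_left _ _)
        linarith
      · have := (min_le_right (min tp (1 - tp)) (min ta (1 - ta))).trans (min_le_right _ _)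
        linarith
    refine ⟨δ / 200, by positivity, ?_⟩
    filter_upwards [ev 1000 hδ, ev 1000 (show 0 < δ / 200 by positivity)] with n hn hn'
    have hn0 : 0 < n := by
      rcases Nat.eq_zero_or_pos n with h | h
      · rw [h] at hn
        norm_num at hn
      · exact h
    set t := ⌊tp * (n : ℝ)⌋₊ with ht
    set σ := ⌊ta * (n : ℝ)⌋₊ with hσ
    set L : ℤ := ⌊δ * (n : ℝ)⌋ with hLd
    have t1 : (t : ℝ) ≤ tp * n := Nat.floor_le (by positivity)
    have t2 : tp * n < t + 1 := Nat.lt_floor_add_one _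
    have s1 : (σ : ℝ) ≤ ta * n := Nat.floor_le (by positivity)
    have s2 : ta * n < σ + 1 := Nat.lt_floor_add_one _
    have L1 : (L : ℝ) ≤ δ * n := Int.floor_le _
    have L2 : δ * n < L + 1 := Int.lt_floor_add_one _
    have hnr : (0 : ℝ) < n := by exact_mod_cast hn0
    have g1 : L ≤ (t : ℤ) := by
      have : (L : ℝ) ≤ ((t : ℤ) : ℝ) := by
        push_cast
        nlinarith
      exact_mod_cast this
    have g2 : (t : ℤ) + L ≤ n := by
      have : (((t : ℤ) + L : ℤ) : ℝ) ≤ ((n : ℤ) : ℝ) := by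
        push_cast
        nlinarith
      exact_mod_cast this
    have g3 : L ≤ (σ : ℤ) := by
      have : (L : ℝ) ≤ ((σ : ℤ) : ℝ) := by
        push_cast
        nlinarith
      exact_mod_cast this
    have g4 : (σ : ℤ) + L ≤ n := by
      have : (((σ : ℤ) + L : ℤ) : ℝ) ≤ ((n : ℤ) : ℝ) := by
        push_cast
        nlinarith
      exact_mod_cast this
    have g0 : 1 ≤ L := by
      have : ((1 : ℤ) : ℝ) ≤ (L : ℝ) := by
        push_cast
        linarith
      exact_mod_cast this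
    set m₀ : ℤ := ⌊δ / 200 * (n : ℝ)⌋ with hm₀
    have m1 : (m₀ : ℝ) ≤ δ / 200 * n := Int.floor_le _
    have m2 : δ / 200 * n < m₀ + 1 := Int.lt_floor_add_one _
    have g5 : 1 ≤ m₀ := by
      have : ((1 : ℤ) : ℝ) ≤ (m₀ : ℝ) := by
        push_cast
        linarith
      exact_mod_cast this
    have g6 : 4 * (9 * (2 * m₀ + 3) + (2 * m₀ + 3)) < L := by
      have : ((4 * (9 * (2 * m₀ + 3) + (2 * m₀ + 3)) : ℤ) : ℝ) < (L : ℝ) := by
        push_cast
        linarith
      exact_mod_cast this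
    have hRD := rd_enl (S₀ := S₀) (n := n) (t := t) hp hD g0 b1 b2 g1 g2 g3 g4
    have hka : Bc.ka l n t (.dob ia ta) = ia * n + σ - t := by
      show kOf l n t ia σ = _
      unfold kOf
      have e1 : 1 * n ≤ ia * n := Nat.mul_le_mul_right n b1
      rw [one_mul] at e1
      rw [if_pos (by omega)]
    refine ⟨etaR (enl S₀ n) (fun a => PN p n (a + t)) (l * n) (ia * n + σ - t) (pdir p ia)
      (pdir p 0) (9 * (2 * m₀ + 3)) (2 * m₀ + 3), ?_, ?_⟩
    · rw [hka]
      exact hRD.dob (by omega) (by omega) g6 (isPolygon_qN hn0 hp t) (encloses_qN hn0 hp hD t)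
        fun a => qN_nat hn0 t a
    · refine hRD.reg g5 le_rfl le_rfl g6 fun x R b η hR hη => ?_
      refine oneC_const hp hD ?_ hn0 b hη
      omega

end Vale.Agent.P167.H825.Reg
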