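import Vale.Agent.P167.H167.Q.EDefs
import Vale.Agent.P167.H592.T.OneR
import Vale.Agent.P167.H718.Rp4

/-!
# P167, general `q`, S_REG: thick outside configurations with Dobrushin boundary conditions

`RD`: abstract description of a closed curve of boundary sites `P 0, …, P N = P 0` of a domain which
is a half-plane near the two junctions `P 0`, `P k`. `etaR`: the open squares outside are the squares
near the wired sites, near the junctions exactly the squares on the wired side.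
-/

namespace Vale.Agent.P167.H825.Reg

open Finset
open Vale.Agent.P167.FK
open Vale.Agent.P167.BR (sites mem_sites)
open Vale.Agent.P167.E6 (IsPolygon Encloses dir face)
open Vale.Agent.P167.H167.Q (hpl hcl lsd FlR Bd3 Reg)
open Vale.Agent.P167.H166 (bxx mem_bxx)
open Vale.Agent.P167.H562.QM (OneP OneC QC mem_image_sh)
open Vale.Agent.P167.Enl (IsRect oneP_rect isRect_bxx nm_tri nm_sub_comm nm_nonneg nm_dir)
open Vale.Agent.P167.H506.Q (mem_bq)
open Vale.Agent.P167.H718 (Dob dob_of etaW mem_opW)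

/-! ### coordinates -/

/-- The coordinate along the direction `r`. -/
def al (r : Fin 4) (z v : ℤ × ℤ) : ℤ :=
  match r with
  | 0 => v.1 - z.1
  | 1 => v.2 - z.2
  | 2 => z.1 - 1 - v.1
  | 3 => z.2 - 1 - v.2

theorem nmle {v : ℤ × ℤ} {a : ℤ} : nm v ≤ a ↔ -a ≤ v.1 ∧ v.1 ≤ a ∧ -a ≤ v.2 ∧ v.2 ≤ a := by
  unfold nm
  rw [max_le_iff, abs_le, abs_le]
  tauto

theorem f4 (r : Fin 4) : r = 0 ∨ r = 1 ∨ r = 2 ∨ r = 3 := by
  fin_cases r <;> simp

theorem al_near {r : Fin 4} {z v : ℤ × ℤ} {s d : ℤ} (h : nm (v - (z + s • dir r)) ≤ d) :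
    s - d - 1 ≤ al r z v ∧ al r z v ≤ s + d := by
  rw [nmle] at h
  have e0 : dir 0 = (1, 0) := rfl
  have e1 : dir 1 = (0, 1) := rfl
  have e2 : dir 2 = (-1, 0) := rfl
  have e3 : dir 3 = (0, -1) := rfl
  rcases f4 r with rfl | rfl | rfl | rfl
  · rw [e0] at h
    simp only [Prod.fst_sub, Prod.snd_sub, Prod.fst_add, Prod.snd_add, Prod.smul_fst,
      Prod.smul_snd, smul_eq_mul, mul_one, mul_zero] at h
    show s - d - 1 ≤ v.1 - z.1 ∧ v.1 - z.1 ≤ s + d
    omega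
  · rw [e1] at h
    simp only [Prod.fst_sub, Prod.snd_sub, Prod.fst_add, Prod.snd_add, Prod.smul_fst,
      Prod.smul_snd, smul_eq_mul, mul_one, mul_zero] at h
    show s - d - 1 ≤ v.2 - z.2 ∧ v.2 - z.2 ≤ s + d
    omega
  · rw [e2] at h
    simp only [Prod.fst_sub, Prod.snd_sub, Prod.fst_add, Prod.snd_add, Prod.smul_fst,
      Prod.smul_snd, smul_eq_mul, mul_neg, mul_one, mul_zero] at h
    show s - d - 1 ≤ z.1 - 1 - v.1 ∧ z.1 - 1 - v.1 ≤ s + d
    omega
  · rw [e3] at h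
    simp only [Prod.fst_sub, Prod.snd_sub, Prod.fst_add, Prod.snd_add, Prod.smul_fst,
      Prod.smul_snd, smul_eq_mul, mul_neg, mul_one, mul_zero] at h
    show s - d - 1 ≤ z.2 - 1 - v.2 ∧ z.2 - 1 - v.2 ≤ s + d
    omega

theorem al_cor {r : Fin 4} {z v s : ℤ × ℤ} {σ : ℤ} (hs : s = z + σ • dir r)
    (h1 : s.1 = v.1 ∨ s.1 = v.1 + 1) (h2 : s.2 = v.2 ∨ s.2 = v.2 + 1) :
    al r z v = σ ∨ al r z v = σ - 1 := by
  have e0 : dir 0 = (1, 0) := rfl
  have e1 : dir 1 = (0, 1) := rfl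
  have e2 : dir 2 = (-1, 0) := rfl
  have e3 : dir 3 = (0, -1) := rfl
  have f1 := congrArg Prod.fst hs
  have f2 := congrArg Prod.snd hs
  rcases f4 r with rfl | rfl | rfl | rfl
  · rw [e0] at f1 f2
    simp only [Prod.fst_add, Prod.snd_add, Prod.smul_fst,
      Prod.smul_snd, smul_eq_mul, mul_one, mul_zero] at f1 f2
    show v.1 - z.1 = _ ∨ v.1 - z.1 = _
    omega
  · rw [e1] at f1 f2
    simp only [Prod.fst_add, Prod.snd_add, Prod.smul_fst,
      Prod.smul_snd, smul_eq_mul, mul_one, mul_zero] at f1 f2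
    show v.2 - z.2 = _ ∨ v.2 - z.2 = _
    omega
  · rw [e2] at f1 f2
    simp only [Prod.fst_add, Prod.snd_add, Prod.smul_fst,
      Prod.smul_snd, smul_eq_mul, mul_neg, mul_one, mul_zero] at f1 f2
    show z.1 - 1 - v.1 = _ ∨ z.1 - 1 - v.1 = _
    omega
  · rw [e3] at f1 f2
    simp only [Prod.fst_add, Prod.snd_add, Prod.smul_fst,
      Prod.smul_snd, smul_eq_mul, mul_neg, mul_one, mul_zero] at f1 f2
    show z.2 - 1 - v.2 = _ ∨ z.2 - 1 - v.2 = _
    omega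

theorem hcl_of {r : Fin 4} {z u x : ℤ × ℤ} (h : hpl r z u) (h1 : x.1 = u.1 ∨ x.1 = u.1 + 1)
    (h2 : x.2 = u.2 ∨ x.2 = u.2 + 1) : hcl r z x := by
  rcases f4 r with rfl | rfl | rfl | rfl
  · have h' : z.2 ≤ u.2 := h
    show z.2 ≤ x.2
    omega
  · have h' : u.1 < z.1 := h
    show x.1 ≤ z.1
    omega
  · have h' : u.2 < z.2 := h
    show x.2 ≤ z.2
    omega
  · have h' : z.1 ≤ u.1 := h
    show z.1 ≤ x.1
    omega

open Classical in
theorem lsd_al (r : Fin 4) (z : ℤ × ℤ) (b : Bool) : ∃ pl pr : Bool, ∀ v : ℤ × ℤ,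
    (if 0 ≤ al r z v then b else !b) = if lsd r z v then pl else pr := by
  rcases f4 r with rfl | rfl | rfl | rfl
  · refine ⟨!b, b, fun v => ?_⟩
    by_cases h : 0 ≤ v.1 - z.1
    · rw [if_pos (show 0 ≤ al 0 z v from h), if_neg (show ¬ lsd 0 z v from not_lt.2 (by omega))]
    · rw [if_neg (show ¬ 0 ≤ al 0 z v from h), if_pos (show lsd 0 z v from by
        show v.1 < z.1
        omega)]
  · refine ⟨!b, b, fun v => ?_⟩
    by_cases h : 0 ≤ v.2 - z.2
    · rw [if_pos (show 0 ≤ al 1 z v from h), if_neg (show ¬ lsd 1 z v from not_lt.2 (by omega))]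
    · rw [if_neg (show ¬ 0 ≤ al 1 z v from h), if_pos (show lsd 1 z v from by
        show v.2 < z.2
        omega)]
  · refine ⟨b, !b, fun v => ?_⟩
    by_cases h : 0 ≤ z.1 - 1 - v.1
    · rw [if_pos (show 0 ≤ al 2 z v from h), if_pos (show lsd 2 z v from by
        show v.1 < z.1
        omega)]
    · rw [if_neg (show ¬ 0 ≤ al 2 z v from h), if_neg (show ¬ lsd 2 z v from not_lt.2 (by omega))]
  · refine ⟨b, !b, fun v => ?_⟩
    by_cases h : 0 ≤ z.2 - 1 - v.2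
    · rw [if_pos (show 0 ≤ al 3 z v from h), if_pos (show lsd 3 z v from by
        show v.2 < z.2
        omega)]
    · rw [if_neg (show ¬ 0 ≤ al 3 z v from h), if_neg (show ¬ lsd 3 z v from not_lt.2 (by omega))]

/-! ### rectangles -/

theorem rect_cut {S T : Set (ℤ × ℤ)} (h : IsRect S) (a0 a1 b0 b1 : ℤ)
    (hT : ∀ v ∈ S, v ∈ T ↔ a0 ≤ v.1 ∧ v.1 < a1 ∧ b0 ≤ v.2 ∧ v.2 < b1) : IsRect (S ∩ T) := by
  obtain ⟨x0, x1, y0, y1, hS⟩ := h
  refine ⟨max x0 a0, min x1 a1, max y0 b0, min y1 b1, fun v => ?_⟩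
  rw [Set.mem_inter_iff, max_le_iff, max_le_iff, lt_min_iff, lt_min_iff]
  constructor
  · rintro ⟨h1, h2⟩
    have h3 := (hS v).1 h1
    have h4 := (hT v h1).1 h2
    tauto
  · rintro ⟨⟨h1, h2⟩, ⟨h3, h4⟩, ⟨h5, h6⟩, h7, h8⟩
    have h9 := (hS v).2 ⟨h1, h3, h5, h7⟩
    exact ⟨h9, (hT v h9).2 ⟨h2, h4, h6, h8⟩⟩

/-- **Two rectangles.** -/
theorem oneC_of_rect {D : Finset (ℤ × ℤ)} {η : Cfg} {y : ℤ × ℤ} {a : ℤ}
    (h1 : IsRect {v | v ∈ bxx y a ∧ v ∉ D ∧ η v = true})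
    (h2 : IsRect {v | v ∈ bxx y a ∧ v ∉ D ∧ η v = false}) : OneC y a D η := by
  refine ⟨oneP_rect h1, oneP_rect ?_⟩
  have e : {v | v ∈ bxx (FKA.sh y) a ∧ v ∉ D.image (fun v => (v.1 + 1, v.2)) ∧
      FK.du η v = true} =
      {v | FKA.shi v ∈ ({v | v ∈ bxx y a ∧ v ∉ D ∧ η v = false} : Set (ℤ × ℤ))} := by
    ext v
    simp only [Set.mem_ofPred_eq]
    rw [FKA.mem_bxx_sh, mem_image_sh]
    have e1 : FK.du η v = true ↔ η (FKA.shi v) = false := by
      show (!η (FKA.shi v)) = true ↔ _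
      cases η (FKA.shi v) <;> simp
    rw [e1]
  rw [e]
  exact h2.shift

/-- The half-plane quadrants. -/
theorem isRect_quad (r : Fin 4) (z y : ℤ × ℤ) (a : ℤ) (b : Bool) :
    IsRect {v | v ∈ bxx y a ∧ ¬ hpl r z v ∧ decide (0 ≤ al r z v) = b} := by
  obtain ⟨M, hM⟩ : ∃ M : ℤ, M = |y.1| + |y.2| + |z.1| + |z.2| + |a| + 5 := ⟨_, rfl⟩
  have hb : ∀ v ∈ bxx y a, -M < v.1 ∧ v.1 < M ∧ -M < v.2 ∧ v.2 < M := by
    intro v hv
    rw [mem_bxx, nmle] at hv
    simp only [Prod.fst_sub, Prod.snd_sub] at hv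
    have h1 := abs_nonneg y.1
    have h2 := le_abs_self y.1
    have h3 := neg_abs_le y.1
    have h4 := abs_nonneg y.2
    have h5 := le_abs_self y.2
    have h6 := neg_abs_le y.2
    have h7 := le_abs_self a
    have h8 := neg_abs_le a
    have h9 := abs_nonneg z.1
    have h10 := abs_nonneg z.2
    omega
  have hz : -M < z.1 ∧ z.1 < M ∧ -M < z.2 ∧ z.2 < M := by
    have h1 := abs_nonneg y.1
    have h4 := abs_nonneg y.2
    have h7 := abs_nonneg a
    have h2 := le_abs_self z.1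
    have h3 := neg_abs_le z.1
    have h5 := le_abs_self z.2
    have h6 := neg_abs_le z.2
    omega
  have key : ∀ T : Set (ℤ × ℤ), {v | v ∈ bxx y a ∧ ¬ hpl r z v ∧ decide (0 ≤ al r z v) = b} =
      {v | v ∈ bxx y a} ∩ {v | ¬ hpl r z v ∧ decide (0 ≤ al r z v) = b} := by
    intro T
    ext v
    simp only [Set.mem_ofPred_eq, Set.mem_inter_iff]
  rw [key ∅]
  rcases f4 r with rfl | rfl | rfl | rfl <;> cases b
  · refine rect_cut (isRect_bxx y a) (-M) z.1 (-M) z.2 fun v hv => ?_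
    have := hb v hv
    show (¬ z.2 ≤ v.2 ∧ decide (0 ≤ v.1 - z.1) = false) ↔ _
    rw [decide_eq_false_iff_not]
    omega
  · refine rect_cut (isRect_bxx y a) z.1 M (-M) z.2 fun v hv => ?_
    have := hb v hv
    show (¬ z.2 ≤ v.2 ∧ decide (0 ≤ v.1 - z.1) = true) ↔ _
    rw [decide_eq_true_iff]
    omega
  · refine rect_cut (isRect_bxx y a) z.1 M (-M) z.2 fun v hv => ?_
    have := hb v hv
    show (¬ v.1 < z.1 ∧ decide (0 ≤ v.2 - z.2) = false) ↔ _
    rw [decide_eq_false_iff_not]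
    omega
  · refine rect_cut (isRect_bxx y a) z.1 M z.2 M fun v hv => ?_
    have := hb v hv
    show (¬ v.1 < z.1 ∧ decide (0 ≤ v.2 - z.2) = true) ↔ _
    rw [decide_eq_true_iff]
    omega
  · refine rect_cut (isRect_bxx y a) z.1 M z.2 M fun v hv => ?_
    have := hb v hv
    show (¬ v.2 < z.2 ∧ decide (0 ≤ z.1 - 1 - v.1) = false) ↔ _
    rw [decide_eq_false_iff_not]
    omega
  · refine rect_cut (isRect_bxx y a) (-M) z.1 z.2 M fun v hv => ?_
    have := hb v hv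
    show (¬ v.2 < z.2 ∧ decide (0 ≤ z.1 - 1 - v.1) = true) ↔ _
    rw [decide_eq_true_iff]
    omega
  · refine rect_cut (isRect_bxx y a) (-M) z.1 z.2 M fun v hv => ?_
    have := hb v hv
    show (¬ z.1 ≤ v.1 ∧ decide (0 ≤ z.2 - 1 - v.2) = false) ↔ _
    rw [decide_eq_false_iff_not]
    omega
  · refine rect_cut (isRect_bxx y a) (-M) z.1 (-M) z.2 fun v hv => ?_
    have := hb v hv
    show (¬ z.1 ≤ v.1 ∧ decide (0 ≤ z.2 - 1 - v.2) = true) ↔ _
    rw [decide_eq_true_iff]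
    omega

/-- **A flat box with two colours.** -/
theorem oneC_flat {D : Finset (ℤ × ℤ)} {η : Cfg} {y z : ℤ × ℤ} {a : ℤ} {r : Fin 4} {b : Bool}
    (hD : ∀ v ∈ bxx y a, (v ∈ D ↔ hpl r z v))
    (hη : ∀ v ∈ bxx y a, v ∉ D → η v = if 0 ≤ al r z v then b else !b) : OneC y a D η := by
  have key : ∀ c : Bool, {v | v ∈ bxx y a ∧ v ∉ D ∧ η v = c} =
      {v | v ∈ bxx y a ∧ ¬ hpl r z v ∧ decide (0 ≤ al r z v) = (b == c)} := by
    intro c
    ext v
    simp only [Set.mem_ofPred_eq]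
    constructor
    · rintro ⟨h1, h2, h3⟩
      refine ⟨h1, fun h4 => h2 ((hD v h1).2 h4), ?_⟩
      rw [hη v h1 h2] at h3
      by_cases h5 : 0 ≤ al r z v
      · rw [if_pos h5] at h3
        rw [decide_eq_true h5, h3]
        cases c <;> rfl
      · rw [if_neg h5] at h3
        rw [decide_eq_false h5, ← h3]
        cases b <;> rfl
    · rintro ⟨h1, h2, h3⟩
      have h4 : v ∉ D := fun h4 => h2 ((hD v h1).1 h4)
      refine ⟨h1, h4, ?_⟩
      rw [hη v h1 h4]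
      by_cases h5 : 0 ≤ al r z v
      · rw [if_pos h5]
        rw [decide_eq_true h5] at h3
        cases b <;> cases c <;> first | rfl | simp at h3
      · rw [if_neg h5]
        rw [decide_eq_false h5] at h3
        cases b <;> cases c <;> first | rfl | simp at h3
  refine oneC_of_rect ?_ ?_
  · rw [key]
    exact isRect_quad r z y a _
  · rw [key]
    exact isRect_quad r z y a _

end Vale.Agent.P167.H825.Reg
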