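import Vale.Agent.P167.H825.Reg.Eta

/-!
# P167, general `q`, S_REG: the thick outside configuration
-/

namespace Vale.Agent.P167.H825.Reg

open Finset
open Vale.Agent.P167.FK
open Vale.Agent.P167.BR (sites mem_sites)
open Vale.Agent.P167.E6 (IsPolygon Encloses dir face)
open Vale.Agent.P167.H167.Q (hpl hcl lsd FlR Bd3 Reg)
open Vale.Agent.P167.H166 (bxx mem_bxx)
open Vale.Agent.P167.H562.QM (OneP OneC QC mem_image_sh)
open Vale.Agent.P167.Enl (IsRect oneP_rect isRect_bxx nm_tri nm_sub_comm nm_dir)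
open Vale.Agent.P167.H506.Q (mem_bq)
open Vale.Agent.P167.H718 (Dob dob_of etaW mem_opW)

/-- The boundary sites of a domain. -/
structure RD (D : Finset (ℤ × ℤ)) (P : ℕ → ℤ × ℤ) (N k : ℕ) (rA rB : Fin 4) (L : ℤ) : Prop where
  k0 : L ≤ k
  k1 : (k : ℤ) + L ≤ N
  near : ∀ a b : ℕ, a ≤ N → b ≤ N → ∀ d : ℤ, 2 * d ≤ L → nm (P a - P b) ≤ d →
    (-(2 * d) ≤ (a : ℤ) - b ∧ (a : ℤ) - b ≤ 2 * d) ∨ (N : ℤ) - ((a : ℤ) - b) ≤ 2 * d ∨
      (N : ℤ) + ((a : ℤ) - b) ≤ 2 * d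
  lip : ∀ a b : ℕ, nm (P a - P b) ≤ (a : ℤ) - b ∨ nm (P a - P b) ≤ (b : ℤ) - a
  per : P N = P 0
  sA : ∀ a : ℕ, -L ≤ (a : ℤ) - k → (a : ℤ) - k ≤ L → P a = P k + ((a : ℤ) - k) • dir rA
  sB : ∀ a : ℕ, (a : ℤ) ≤ L → P a = P 0 + (a : ℤ) • dir rB
  sB' : ∀ a : ℕ, a ≤ N → (N : ℤ) - a ≤ L → P a = P 0 + ((a : ℤ) - N) • dir rB
  dA : ∀ v ∈ Bq (P k) L, (v ∈ D ↔ hpl rA (P k) v)
  dB : ∀ v ∈ Bq (P 0) L, (v ∈ D ↔ hpl rB (P 0) v)
  bd : ∀ s ∈ sites D, ∀ v ∉ D, (s.1 = v.1 ∨ s.1 = v.1 + 1) → (s.2 = v.2 ∨ s.2 = v.2 + 1) →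
    ∃ a : ℕ, a < N ∧ P a = s

variable {D : Finset (ℤ × ℤ)} {P : ℕ → ℤ × ℤ} {N k : ℕ} {rA rB : Fin 4} {L ρ m : ℤ}

theorem nm_nn' (v : ℤ × ℤ) : 0 ≤ nm v := le_max_of_le_left (abs_nonneg _)

theorem nm_dir1 (s : ℤ) (r : Fin 4) : s = nm (s • dir r) ∨ -s = nm (s • dir r) := by
  rw [nm_dir]
  rcases abs_cases s with h | h <;> rw [h.1]
  · exact Or.inl rfl
  · exact Or.inr rfl

/-- Sites near the junction `P k`. -/
theorem RD.idxA (h : RD D P N k rA rB L) {a : ℕ} (ha : a ≤ N) {d : ℤ} (hd : 2 * d < L)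
    (hn : nm (P a - P k) ≤ d) :
    P a = P k + ((a : ℤ) - k) • dir rA ∧
      ((a : ℤ) - k = nm (P a - P k) ∨ (k : ℤ) - a = nm (P a - P k)) := by
  have h0 := h.k0
  have h1 := h.k1
  have hd0 := (nm_nn' _).trans hn
  rcases h.near a k ha (by omega) d hd.le hn with h2 | h2 | h2
  · have h3 := h.sA a (by omega) (by omega)
    refine ⟨h3, ?_⟩
    have h4 := nm_dir1 ((a : ℤ) - k) rA
    rw [h3, add_sub_cancel_left]
    omega
  · exfalso
    omega
  · exfalso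
    omega

/-- Sites near the junction `P 0`. -/
theorem RD.idxB (h : RD D P N k rA rB L) {a : ℕ} (ha : a ≤ N) {d : ℤ} (hd : 2 * d < L)
    (hn : nm (P a - P 0) ≤ d) :
    (P a = P 0 + (a : ℤ) • dir rB ∧ (a : ℤ) = nm (P a - P 0)) ∨
    (P a = P 0 + ((a : ℤ) - N) • dir rB ∧ (N : ℤ) - a = nm (P a - P 0)) := by
  have h0 := h.k0
  have h1 := h.k1
  have hd0 := (nm_nn' _).trans hn
  rcases h.near a 0 ha (by omega) d hd.le hn with h2 | h2 | h2
  · left
    have h3 := h.sB a (by omega)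
    refine ⟨h3, ?_⟩
    have h4 := nm_dir1 (a : ℤ) rB
    rw [h3, add_sub_cancel_left]
    have h5 := nm_nn' ((a : ℤ) • dir rB)
    omega
  · right
    have h3 := h.sB' a ha (by omega)
    refine ⟨h3, ?_⟩
    have h4 := nm_dir1 ((a : ℤ) - N) rB
    rw [h3, add_sub_cancel_left]
    have h5 := nm_nn' (((a : ℤ) - N) • dir rB)
    omega
  · exfalso
    omega

theorem RD.farAB (h : RD D P N k rA rB L) {d : ℤ} (hd : 2 * d < L) : d < nm (P k - P 0) := by
  by_contra hc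
  push Not at hc
  have h0 := h.k0
  have h1 := h.k1
  have hd0 := (nm_nn' _).trans hc
  rcases h.near k 0 (by omega) (by omega) d hd.le hc with h2 | h2 | h2 <;> omega

/-- The open squares. -/
noncomputable def opR (D : Finset (ℤ × ℤ)) (P : ℕ → ℤ × ℤ) (N k : ℕ) (rA rB : Fin 4) (ρ m : ℤ) :
    Finset (ℤ × ℤ) :=
  ((Bq (P k) ρ).filter (fun v => 0 ≤ al rA (P k) v) ∪
    (Bq (P 0) ρ).filter (fun v => al rB (P 0) v < 0) ∪
    ((Finset.Icc k N).biUnion fun j => bxx (P j) m) \ (Bq (P k) ρ ∪ Bq (P 0) ρ)) \ D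

theorem mem_opR {v : ℤ × ℤ} : v ∈ opR D P N k rA rB ρ m ↔
    ((v ∈ Bq (P k) ρ ∧ 0 ≤ al rA (P k) v) ∨ (v ∈ Bq (P 0) ρ ∧ al rB (P 0) v < 0) ∨
      ((∃ j : ℕ, k ≤ j ∧ j ≤ N ∧ nm (v - P j) ≤ m) ∧ v ∉ Bq (P k) ρ ∧ v ∉ Bq (P 0) ρ)) ∧
      v ∉ D := by
  unfold opR
  simp only [Finset.mem_sdiff, Finset.mem_union, Finset.mem_filter, Finset.mem_biUnion,
    Finset.mem_Icc, mem_bxx]
  constructor
  · rintro ⟨(h | h) | ⟨⟨j, ⟨h1, h2⟩, h3⟩, h4⟩, h5⟩
    · exact ⟨Or.inl h, h5⟩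
    · exact ⟨Or.inr (Or.inl h), h5⟩
    · exact ⟨Or.inr (Or.inr ⟨⟨j, h1, h2, h3⟩, fun h => h4 (Or.inl h), fun h => h4 (Or.inr h)⟩), h5⟩
  · rintro ⟨h | h | ⟨⟨j, h1, h2, h3⟩, h4, h4'⟩, h5⟩
    · exact ⟨Or.inl (Or.inl h), h5⟩
    · exact ⟨Or.inl (Or.inr h), h5⟩
    · exact ⟨Or.inr ⟨⟨j, ⟨h1, h2⟩, h3⟩, fun h => h.elim h4 h4'⟩, h5⟩

/-- **The thick configuration.** -/
noncomputable def etaR (D : Finset (ℤ × ℤ)) (P : ℕ → ℤ × ℤ) (N k : ℕ) (rA rB : Fin 4) (ρ m : ℤ) :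
    Cfg := fun v => decide (v ∈ opR D P N k rA rB ρ m)

theorem good_etaR : Good (etaR D P N k rA rB ρ m) := by
  classical
  have h : etaR D P N k rA rB ρ m =
      cf (opR D P N k rA rB ρ m) eta0 (opR D P N k rA rB ρ m) := by
    funext v
    unfold etaR cf
    by_cases hv : v ∈ opR D P N k rA rB ρ m
    · rw [if_pos hv]
    · rw [if_neg hv]
      simp [hv, eta0]
  rw [h]
  exact good_cf _ good_eta0 _

/-- Boxes of the two junctions. -/
theorem RD.boxes (h : RD D P N k rA rB L) (hρ : 4 * ρ < L) {v : ℤ × ℤ} (h1 : v ∈ Bq (P k) ρ)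
    (h2 : v ∈ Bq (P 0) ρ) : False := by
  have h3 := h.farAB (d := 2 * ρ) (by omega)
  rw [mem_bq] at h1 h2
  have h4 : nm (P k - P 0) ≤ 2 * ρ := by
    rw [nmle]
    simp only [Prod.fst_sub, Prod.snd_sub]
    omega
  omega

theorem etaR_A {v : ℤ × ℤ} (hv : v ∉ D) (h1 : v ∈ Bq (P k) ρ) (h2 : v ∉ Bq (P 0) ρ) :
    etaR D P N k rA rB ρ m v = if 0 ≤ al rA (P k) v then true else !true := by
  unfold etaR
  by_cases h3 : 0 ≤ al rA (P k) v
  · rw [if_pos h3, decide_eq_true_iff, mem_opR]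
    exact ⟨Or.inl ⟨h1, h3⟩, hv⟩
  · rw [if_neg h3]
    refine decide_eq_false fun h4 => ?_
    rw [mem_opR] at h4
    rcases h4.1 with h5 | h5 | h5
    · exact h3 h5.2
    · exact h2 h5.1
    · exact h5.2.1 h1

theorem etaR_B {v : ℤ × ℤ} (hv : v ∉ D) (h1 : v ∉ Bq (P k) ρ) (h2 : v ∈ Bq (P 0) ρ) :
    etaR D P N k rA rB ρ m v = if 0 ≤ al rB (P 0) v then false else !false := by
  unfold etaR
  by_cases h3 : 0 ≤ al rB (P 0) v
  · rw [if_pos h3]
    refine decide_eq_false fun h4 => ?_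
    rw [mem_opR] at h4
    rcases h4.1 with h5 | h5 | h5
    · exact h1 h5.1
    · exact absurd h5.2 (not_lt.2 h3)
    · exact h5.2.2 h2
  · rw [if_neg h3]
    show decide _ = true
    rw [decide_eq_true_iff, mem_opR]
    exact ⟨Or.inr (Or.inl ⟨h2, not_le.1 h3⟩), hv⟩

/-- **The colour of the squares near a boundary site far from the junctions.** -/
theorem RD.col (h : RD D P N k rA rB L) (hm : 1 ≤ m) (hρ : 8 * m < ρ) (hL : 4 * (ρ + m) < L)
    {v : ℤ × ℤ} (hv : v ∉ D) {a : ℕ} (ha : a ≤ N) (h1 : nm (v - P a) ≤ m)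
    (h2 : 4 * m < nm (P a - P k)) (h3 : 4 * m < nm (P a - P 0)) :
    etaR D P N k rA rB ρ m v = decide (k ≤ a) := by
  have h0 := h.k0
  have h0' := h.k1
  by_cases hA : v ∈ Bq (P k) ρ
  · have hB : v ∉ Bq (P 0) ρ := fun hB => h.boxes (by omega) hA hB
    rw [etaR_A hv hA hB]
    have h4 : nm (P a - P k) ≤ ρ + m := by
      have h5 := nm_tri (P a) v (P k)
      rw [nm_sub_comm (P a) v] at h5
      have h6 : nm (v - P k) ≤ ρ := by
        rw [mem_bq] at hA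
        rw [nmle]
        simp only [Prod.fst_sub, Prod.snd_sub]
        omega
      omega
    obtain ⟨h5, h6⟩ := h.idxA ha (d := ρ + m) (by omega) h4
    rw [h5] at h1
    have h7 := al_near h1
    by_cases hk : k ≤ a
    · rw [if_pos (by omega), decide_eq_true hk]
    · rw [if_neg (by omega), decide_eq_false hk]
      rfl
  · by_cases hB : v ∈ Bq (P 0) ρ
    · rw [etaR_B hv hA hB]
      have h4 : nm (P a - P 0) ≤ ρ + m := by
        have h5 := nm_tri (P a) v (P 0)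
        rw [nm_sub_comm (P a) v] at h5
        have h6 : nm (v - P 0) ≤ ρ := by
          rw [mem_bq] at hB
          rw [nmle]
          simp only [Prod.fst_sub, Prod.snd_sub]
          omega
        omega
      rcases h.idxB ha (d := ρ + m) (by omega) h4 with ⟨h5, h6⟩ | ⟨h5, h6⟩
      · rw [h5] at h1
        have h7 := al_near h1
        rw [if_pos (by omega), decide_eq_false (by omega)]
      · rw [h5] at h1
        have h7 := al_near h1
        rw [if_neg (by omega), decide_eq_true (show k ≤ a by omega)]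
        rfl
    · unfold etaR
      by_cases hk : k ≤ a
      · rw [decide_eq_true hk, decide_eq_true_iff, mem_opR]
        exact ⟨Or.inr (Or.inr ⟨⟨a, hk, ha, h1⟩, hA, hB⟩), hv⟩
      · rw [decide_eq_false hk]
        refine decide_eq_false fun h4 => ?_
        rw [mem_opR] at h4
        rcases h4.1 with h5 | h5 | ⟨⟨j, hj1, hj2, hj3⟩, -, -⟩
        · exact hA h5.1
        · exact hB h5.1
        · have h6 := nm_tri (P a) v (P j)
          rw [nm_sub_comm (P a) v] at h6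
          have h8 := h.lip a k
          have h9 := h.lip a 0
          rcases h.near a j ha hj2 (2 * m) (by omega) (by omega) with h7 | h7 | h7 <;> omega

/-- **The configuration has Dobrushin boundary conditions.** -/
theorem RD.dob (h : RD D P N k rA rB L) (hm : 1 ≤ m) (hρ : 8 * m < ρ) (hL : 4 * (ρ + m) < L)
    {q : ZMod N → ℤ × ℤ} (hq : IsPolygon q) (hD : Encloses q D)
    (hqP : ∀ a : ℕ, q (a : ZMod N) = P a) : Dob (etaR D P N k rA rB ρ m) D q k := by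
  have h0 := h.k0
  have h0' := h.k1
  have hnear : ∀ {v : ℤ × ℤ} {a : ℕ} {z : ℤ × ℤ}, nm (v - P a) ≤ 1 → nm (P a - z) ≤ 4 * m →
      v ∈ Bq z ρ := by
    intro v a z h1 h2
    have h3 := nm_tri v (P a) z
    have h4 : nm (v - z) ≤ 4 * m + 1 := by omega
    rw [nmle] at h4
    simp only [Prod.fst_sub, Prod.snd_sub] at h4
    rw [mem_bq]
    omega
  have hcor : ∀ {v s : ℤ × ℤ}, (s.1 = v.1 ∨ s.1 = v.1 + 1) → (s.2 = v.2 ∨ s.2 = v.2 + 1) →
      nm (v - s) ≤ 1 := by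
    intro v s h1 h2
    rw [nmle]
    simp only [Prod.fst_sub, Prod.snd_sub]
    omega
  refine dob_of hq hD good_etaR ?_ ?_
  · intro v hv hop
    unfold etaW at hop
    rw [decide_eq_true_iff, mem_opW] at hop
    obtain ⟨⟨j, hj1, hj2, -, r, hr⟩, -⟩ := hop
    rw [hqP] at hr
    have hc : ((P j).1 = v.1 ∨ (P j).1 = v.1 + 1) ∧ ((P j).2 = v.2 ∨ (P j).2 = v.2 + 1) := by
      have f0 : ∀ v : ℤ × ℤ, face v 0 = v + (0, 0) := fun _ => rfl
      have f1 : ∀ v : ℤ × ℤ, face v 1 = v + (-1, 0) := fun _ => rfl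
      have f2 : ∀ v : ℤ × ℤ, face v 2 = v + (-1, -1) := fun _ => rfl
      have f3 : ∀ v : ℤ × ℤ, face v 3 = v + (0, -1) := fun _ => rfl
      rcases f4 r with rfl | rfl | rfl | rfl
      · rw [hr, f0]; simp
      · rw [hr, f1]; simp
      · rw [hr, f2]; simp
      · rw [hr, f3]; simp
    have h1 := hcor hc.1 hc.2
    by_cases hA : nm (P j - P k) ≤ 4 * m
    · have h2 := hnear h1 hA
      have h3 : v ∉ Bq (P 0) ρ := fun hB => h.boxes (by omega) h2 hB
      rw [etaR_A hv h2 h3]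
      obtain ⟨h5, h6⟩ := h.idxA hj2.le (d := 4 * m) (by omega) hA
      have h7 := al_cor h5 hc.1 hc.2
      rw [if_pos (by omega)]
    · by_cases hB : nm (P j - P 0) ≤ 4 * m
      · have h2 := hnear h1 hB
        have h3 : v ∉ Bq (P k) ρ := fun hA => h.boxes (by omega) hA h2
        rw [etaR_B hv h3 h2]
        rcases h.idxB hj2.le (d := 4 * m) (by omega) hB with ⟨h5, h6⟩ | ⟨h5, h6⟩
        · omega
        · have h7 := al_cor h5 hc.1 hc.2
          rw [if_neg (by omega)]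
          rfl
      · rw [h.col hm hρ hL hv hj2.le (by omega) (by omega) (by omega)]
        exact decide_eq_true hj1.le
  · intro s hs _ v hv hop h1 h2
    obtain ⟨a, ha, rfl⟩ := h.bd s hs v hv h1 h2
    have h3 := hcor h1 h2
    by_cases hA : nm (P a - P k) ≤ 4 * m
    · have h4 := hnear h3 hA
      have h4' : v ∉ Bq (P 0) ρ := fun hB => h.boxes (by omega) h4 hB
      rw [etaR_A hv h4 h4'] at hop
      obtain ⟨h5, h6⟩ := h.idxA ha.le (d := 4 * m) (by omega) hA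
      have h7 := al_cor h5 h1 h2
      refine ⟨a, ?_, ha.le, hqP a⟩
      by_contra hk
      rw [if_neg (by omega)] at hop
      exact absurd hop (by simp)
    · by_cases hB : nm (P a - P 0) ≤ 4 * m
      · have h4 := hnear h3 hB
        have h4' : v ∉ Bq (P k) ρ := fun hA => h.boxes (by omega) hA h4
        rw [etaR_B hv h4' h4] at hop
        rcases h.idxB ha.le (d := 4 * m) (by omega) hB with ⟨h5, h6⟩ | ⟨h5, h6⟩
        · have h7 := al_cor h5 h1 h2
          by_cases ha0 : a = 0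
          · refine ⟨N, by omega, le_rfl, ?_⟩
            rw [hqP, h.per, ha0]
          · rw [if_pos (by omega)] at hop
            exact absurd hop (by simp)
        · exact ⟨a, by omega, ha.le, hqP a⟩
      · rw [h.col hm hρ hL hv ha.le (by omega) (by omega) (by omega), decide_eq_true_iff] at hop
        exact ⟨a, hop, ha.le, hqP a⟩

end Vale.Agent.P167.H825.Reg
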