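import Vale.Agent.P167.H825.Reg.Eta2

/-!
# P167, general `q`, S_REG: regularity of the thick outside configuration
-/

namespace Vale.Agent.P167.H825.Reg

open Finset
open Vale.Agent.P167.FK
open Vale.Agent.P167.BR (sites mem_sites)
open Vale.Agent.P167.E6 (IsPolygon Encloses dir face)
open Vale.Agent.P167.H167.Q (hpl hcl lsd FlR Bd3 Reg)
open Vale.Agent.P167.H166 (bxx mem_bxx)
open Vale.Agent.P167.H562.QM (OneP OneC QC mem_image_sh)
open Vale.Agent.P167.Enl (nm_tri nm_sub_comm nm_dir)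
open Vale.Agent.P167.H506.Q (mem_bq)

/-- A place where a predicate changes. -/
theorem step_btw {f : ℤ → Prop} : ∀ (n : ℕ) {a b : ℤ}, (b - a).natAbs = n → f a → ¬ f b →
    ∃ c c' : ℤ, (c' = c + 1 ∨ c' = c - 1) ∧ f c ∧ ¬ f c' ∧
      ((a ≤ c ∧ c ≤ b) ∨ (b ≤ c ∧ c ≤ a)) ∧ ((a ≤ c' ∧ c' ≤ b) ∨ (b ≤ c' ∧ c' ≤ a)) := by
  intro n
  induction n with
  | zero =>
    intro a b h ha hb
    have : b = a := by omega
    rw [this] at hb
    exact absurd ha hb
  | succ n ih =>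
    intro a b h ha hb
    rcases lt_or_gt_of_ne (show a ≠ b by rintro rfl; omega) with h1 | h1
    · by_cases h2 : f (a + 1)
      · obtain ⟨c, c', k1, k2, k3, k4, k5⟩ := ih (a := a + 1) (b := b) (by omega) h2 hb
        exact ⟨c, c', k1, k2, k3, by omega, by omega⟩
      · exact ⟨a, a + 1, Or.inl rfl, ha, h2, by omega, by omega⟩
    · by_cases h2 : f (a - 1)
      · obtain ⟨c, c', k1, k2, k3, k4, k5⟩ := ih (a := a - 1) (b := b) (by omega) h2 hb
        exact ⟨c, c', k1, k2, k3, by omega, by omega⟩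
      · exact ⟨a, a - 1, Or.inr rfl, ha, h2, by omega, by omega⟩

variable {D : Finset (ℤ × ℤ)} {P : ℕ → ℤ × ℤ} {N k : ℕ} {rA rB : Fin 4} {L ρ m : ℤ}

/-- **Between a square of the domain and a square outside there is a boundary site.** -/
theorem RD.walk (h : RD D P N k rA rB L) {y u v : ℤ × ℤ} {r : ℤ} (hu : u ∈ D) (hv : v ∉ D)
    (h1 : nm (u - y) ≤ r) (h2 : nm (v - y) ≤ r) : ∃ a : ℕ, a < N ∧ nm (P a - y) ≤ r + 1 := by
  rw [nmle] at h1 h2
  simp only [Prod.fst_sub, Prod.snd_sub] at h1 h2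
  by_cases hw : (v.1, u.2) ∈ D
  · obtain ⟨c, c', k1, k2, k3, k4, k5⟩ := step_btw (f := fun t => (v.1, t) ∈ D) _ rfl hw
      (show (v.1, v.2) ∉ D from hv)
    obtain ⟨a, ha, hs⟩ := h.bd (v.1, max c c') (mem_sites.2 ⟨(v.1, c), k2, Or.inl rfl, by
      show max c c' = c ∨ max c c' = c + 1
      omega⟩) (v.1, c') k3 (Or.inl rfl) (by
      show max c c' = c' ∨ max c c' = c' + 1
      omega)
    refine ⟨a, ha, ?_⟩
    rw [hs, nmle]
    simp only [Prod.fst_sub, Prod.snd_sub]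
    omega
  · obtain ⟨c, c', k1, k2, k3, k4, k5⟩ := step_btw (f := fun t => (t, u.2) ∈ D) _ rfl
      (show (u.1, u.2) ∈ D from hu) hw
    obtain ⟨a, ha, hs⟩ := h.bd (max c c', u.2) (mem_sites.2 ⟨(c, u.2), k2, by
      show max c c' = c ∨ max c c' = c + 1
      omega, Or.inl rfl⟩) (c', u.2) k3 (by
      show max c c' = c' ∨ max c c' = c' + 1
      omega) (Or.inl rfl)
    refine ⟨a, ha, ?_⟩
    rw [hs, nmle]
    simp only [Prod.fst_sub, Prod.snd_sub]
    omega

/-- **One colour far from the junctions.** -/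
theorem RD.mono (h : RD D P N k rA rB L) (hm : 1 ≤ m) (hρ : 8 * m < ρ) (hL : 4 * (ρ + m) < L)
    {y u : ℤ × ℤ} {r : ℤ} (hr : 2 * r + 1 ≤ m) (hu : u ∈ D) (h1 : nm (u - y) ≤ r)
    (hA : 4 * m + r + 1 < nm (y - P k)) (hB : 4 * m + r + 1 < nm (y - P 0)) :
    ∃ b : Bool, ∀ v, nm (v - y) ≤ r → v ∉ D → etaR D P N k rA rB ρ m v = b := by
  have hr0 : 0 ≤ r := (nm_nn' _).trans h1
  by_cases hex : ∃ v, nm (v - y) ≤ r ∧ v ∉ D
  · obtain ⟨v₀, hv₀, hv₀D⟩ := hex
    obtain ⟨a₀, ha₀, k₀⟩ := h.walk hu hv₀D h1 hv₀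
    refine ⟨decide (k ≤ a₀), fun v hv hvD => ?_⟩
    obtain ⟨a, ha, k₁⟩ := h.walk hu hvD h1 hv
    have far : ∀ {a : ℕ} {z : ℤ × ℤ}, nm (P a - y) ≤ r + 1 → 4 * m + r + 1 < nm (y - z) →
        4 * m < nm (P a - z) := by
      intro a z h2 h3
      have h4 := nm_tri y (P a) z
      rw [nm_sub_comm y (P a)] at h4
      omega
    have e1 := far k₁ hA
    have e2 := far k₁ hB
    have e3 := far k₀ hA
    have e4 := far k₀ hB
    have e5 : nm (v - P a) ≤ m := by
      have h4 := nm_tri v y (P a)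
      rw [nm_sub_comm y (P a)] at h4
      omega
    rw [h.col hm hρ hL hvD ha.le e5 e1 e2]
    have e6 : nm (P a - P a₀) ≤ 2 * (r + 1) := by
      have h4 := nm_tri (P a) y (P a₀)
      rw [nm_sub_comm y (P a₀)] at h4
      omega
    have l1 := h.lip a k
    have l2 := h.lip a 0
    have l3 := h.lip a₀ k
    have l4 := h.lip a₀ 0
    have e7 : k ≤ a ↔ k ≤ a₀ := by
      rcases h.near a a₀ ha.le ha₀.le (2 * (r + 1)) (by omega) e6 with h7 | h7 | h7 <;> omega
    simp only [e7]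
  · push Not at hex
    exact ⟨false, fun v hv hvD => absurd (hex v hv) hvD⟩

/-- **Regularity.** -/
theorem RD.reg (h : RD D P N k rA rB L) {m₀ : ℤ} (h0 : 1 ≤ m₀) (hm : 2 * m₀ + 3 ≤ m)
    (hρ : 9 * m ≤ ρ) (hL : 4 * (ρ + m) < L)
    (hone : ∀ (x : ℤ × ℤ) (R : ℤ) (b : Bool) (η : Cfg), R ≤ m₀ →
      (∀ v ∈ bxx x R, v ∉ D → η v = b) → OneC x R D η) :
    Reg m₀ D (etaR D P N k rA rB ρ m) where
  good := good_etaR
  bd := by
    intro x hx R hR hRm
    obtain ⟨u, hu, hu1, hu2⟩ := mem_sites.1 hx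
    have hux : nm (u - x) ≤ 1 := by
      rw [nmle]
      simp only [Prod.fst_sub, Prod.snd_sub]
      omega
    have sub : ∀ {z : ℤ × ℤ}, nm (x - z) + R + 1 ≤ ρ → (∀ v ∈ Bq x R, v ∈ Bq z ρ) ∧
        (∀ v ∈ Bq x R, v ∈ Bq z L) ∧ u ∈ Bq z L := by
      intro z hz
      have e : nm (x - z) ≤ ρ - R - 1 := by omega
      rw [nmle] at e
      simp only [Prod.fst_sub, Prod.snd_sub] at e
      refine ⟨fun v hv => ?_, fun v hv => ?_, ?_⟩
      · rw [mem_bq] at hv ⊢
        omega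
      · rw [mem_bq] at hv ⊢
        omega
      · rw [mem_bq]
        omega
    by_cases hA : nm (x - P k) + R + 1 ≤ ρ
    · obtain ⟨s1, s2, s3⟩ := sub hA
      obtain ⟨pl, pr, hp⟩ := lsd_al rA (P k) true
      refine Or.inr (Or.inr ⟨rA, P k, pl, pr, ?_, fun v hv => h.dA v (s2 v hv), fun v hv hvD => ?_⟩)
      · exact hcl_of ((h.dA u s3).1 hu) hu1 hu2
      · rw [etaR_A hvD (s1 v hv) fun hB => h.boxes (by omega) (s1 v hv) hB]
        exact hp v
    · by_cases hB : nm (x - P 0) + R + 1 ≤ ρ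
      · obtain ⟨s1, s2, s3⟩ := sub hB
        obtain ⟨pl, pr, hp⟩ := lsd_al rB (P 0) false
        refine Or.inr (Or.inr ⟨rB, P 0, pl, pr, ?_, fun v hv => h.dB v (s2 v hv),
          fun v hv hvD => ?_⟩)
        · exact hcl_of ((h.dB u s3).1 hu) hu1 hu2
        · rw [etaR_B hvD (fun hA => h.boxes (by omega) hA (s1 v hv)) (s1 v hv)]
          exact hp v
      · obtain ⟨b, hb⟩ := h.mono (ρ := ρ) (m := m) (by omega) (by omega) hL (y := x) (u := u)
          (r := R) (by omega) hu (by omega) (by omega) (by omega)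
        have hb' : ∀ v ∈ Bq x R, v ∉ D → etaR D P N k rA rB ρ m v = b := by
          intro v hv hvD
          refine hb v ?_ hvD
          rw [mem_bq] at hv
          rw [nmle]
          simp only [Prod.fst_sub, Prod.snd_sub]
          omega
        cases b
        · exact Or.inl hb'
        · exact Or.inr (Or.inl hb')
  one := by
    intro x R hR hRm hex
    obtain ⟨u, hu, hux⟩ := hex
    rw [nm_sub_comm] at hux
    have sub : ∀ {z : ℤ × ℤ}, nm (x - z) + R + 1 ≤ ρ → (∀ v ∈ bxx x R, v ∈ Bq z ρ) ∧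
        (∀ v ∈ bxx x R, v ∈ Bq z L) := by
      intro z hz
      have e : nm (x - z) ≤ ρ - R - 1 := by omega
      rw [nmle] at e
      simp only [Prod.fst_sub, Prod.snd_sub] at e
      refine ⟨fun v hv => ?_, fun v hv => ?_⟩
      · rw [mem_bxx, nmle] at hv
        simp only [Prod.fst_sub, Prod.snd_sub] at hv
        rw [mem_bq]
        omega
      · rw [mem_bxx, nmle] at hv
        simp only [Prod.fst_sub, Prod.snd_sub] at hv
        rw [mem_bq]
        omega
    by_cases hA : nm (x - P k) + R + 1 ≤ ρ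
    · obtain ⟨s1, s2⟩ := sub hA
      exact oneC_flat (b := true) (fun v hv => h.dA v (s2 v hv)) fun v hv hvD =>
        etaR_A hvD (s1 v hv) fun hB => h.boxes (by omega) (s1 v hv) hB
    · by_cases hB : nm (x - P 0) + R + 1 ≤ ρ
      · obtain ⟨s1, s2⟩ := sub hB
        exact oneC_flat (b := false) (fun v hv => h.dB v (s2 v hv)) fun v hv hvD =>
          etaR_B hvD (fun hA => h.boxes (by omega) hA (s1 v hv)) (s1 v hv)
      · obtain ⟨b, hb⟩ := h.mono (ρ := ρ) (m := m) (by omega) (by omega) hL (y := x) (u := u)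
          (r := m₀) (by omega) hu hux (by omega) (by omega)
        exact hone x R b _ hRm fun v hv hvD => hb v ((mem_bxx.1 hv).trans hRm) hvD

end Vale.Agent.P167.H825.Reg
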